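import Vale.Agent.P146.H9.KLx

/-!
Derivatives in the exponent: `d/dx (1/x) log E exp (x F) = KL / x^2`, `d/dx KL = x Var_x F`.
-/

open MeasureTheory ProbabilityTheory Filter Topology

namespace Vale.Agent.P146.H9

open Vale.Agent.P157.Lv Vale.Agent.P146.H425

set_option linter.unusedSectionVars false

variable {κ : Type} [Fintype κ] {F : (κ → ℝ) → ℝ} {D : κ → (κ → ℝ) → ℝ} {B L x : ℝ}

/-- The mean under the tilted law. -/
noncomputable def Mn (F : (κ → ℝ) → ℝ) (x : ℝ) : ℝ :=
  (∫ z, Real.exp (x * F z) * F z ∂(gI κ)) / ∫ z, Real.exp (x * F z) ∂(gI κ)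

/-- The variance under the tilted law. -/
noncomputable def Vr (F : (κ → ℝ) → ℝ) (x : ℝ) : ℝ :=
  (∫ z, Real.exp (x * F z) * (F z - Mn F x) ^ 2 ∂(gI κ)) / ∫ z, Real.exp (x * F z) ∂(gI κ)

lemma KL_Mn (F : (κ → ℝ) → ℝ) (x : ℝ) :
    KL F x = x * Mn F x - Real.log (∫ z, Real.exp (x * F z) ∂(gI κ)) := rfl

lemma mem_int (h : LipB F B) (hB : 0 ≤ B) (x : ℝ) :
    x ∈ interior (integrableExpSet F (gI κ)) := by
  have h1 : integrableExpSet F (gI κ) = Set.univ := by
    ext t
    simp only [integrableExpSet, Set.mem_ofPred_eq, Set.mem_univ, iff_true]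
    exact ((h.lip hB).exp_eg t).integrable
  rw [h1, interior_univ]
  trivial

lemma mgf_eq (F : (κ → ℝ) → ℝ) (x : ℝ) :
    mgf F (gI κ) x = ∫ z, Real.exp (x * F z) ∂(gI κ) := rfl

lemma cgf_eq (F : (κ → ℝ) → ℝ) (x : ℝ) :
    cgf F (gI κ) x = Real.log (∫ z, Real.exp (x * F z) ∂(gI κ)) := rfl

lemma mgf_pos' (h : LipB F B) (hB : 0 ≤ B) (x : ℝ) : 0 < ∫ z, Real.exp (x * F z) ∂(gI κ) :=
  integral_exp_pos ((h.lip hB).exp_eg x).integrable

lemma deriv_cgf_Mn (h : LipB F B) (hB : 0 ≤ B) (x : ℝ) : deriv (cgf F (gI κ)) x = Mn F x := by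
  rw [deriv_cgf (mem_int h hB x)]
  unfold Mn
  rw [mgf_eq]
  congr 1
  refine integral_congr_ae (Eventually.of_forall fun z => ?_)
  simp only
  ring

lemma hasDerivAt_cgf (h : LipB F B) (hB : 0 ≤ B) (x : ℝ) :
    HasDerivAt (fun x => Real.log (∫ z, Real.exp (x * F z) ∂(gI κ))) (Mn F x) x := by
  have h1 : DifferentiableAt ℝ (cgf F (gI κ)) x :=
    (analyticAt_cgf (mem_int h hB x)).differentiableAt
  have h2 := h1.hasDerivAt
  rw [deriv_cgf_Mn h hB] at h2
  exact h2

lemma hasDerivAt_Mn (h : LipB F B) (hB : 0 ≤ B) (x : ℝ) : HasDerivAt (Mn F) (Vr F x) x := by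
  have e : Mn F = deriv (cgf F (gI κ)) := by
    funext t
    exact (deriv_cgf_Mn h hB t).symm
  have h1 : DifferentiableAt ℝ (deriv (cgf F (gI κ))) x :=
    (analyticAt_cgf (mem_int h hB x)).deriv.differentiableAt
  have h2 := h1.hasDerivAt
  have h3 : deriv (deriv (cgf F (gI κ))) x = Vr F x := by
    have h4 := iteratedDeriv_two_cgf_eq_integral (mem_int h hB x)
    rw [iteratedDeriv_succ, iteratedDeriv_one] at h4
    rw [h4]
    unfold Vr
    rw [deriv_cgf_Mn h hB, mgf_eq]
    congr 1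
    refine integral_congr_ae (Eventually.of_forall fun z => ?_)
    simp only
    ring
  rw [h3] at h2
  rw [e]
  exact h2

lemma Vr_nonneg (h : LipB F B) (hB : 0 ≤ B) (x : ℝ) : 0 ≤ Vr F x :=
  div_nonneg (integral_nonneg fun z => mul_nonneg (Real.exp_pos _).le (sq_nonneg _))
    (mgf_pos' h hB x).le

/-- **The derivative of the exponent functional in the exponent.** -/
theorem hasDerivAt_W (h : LipB F B) (hB : 0 ≤ B) (hx : 0 < x) :
    HasDerivAt (fun x => W x 1 F 0) (KL F x / x ^ 2) x := by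
  have h1 := hasDerivAt_cgf h hB x
  have h2 : HasDerivAt (fun x : ℝ => 1 / x) (-(1 / x ^ 2)) x := by
    have := hasDerivAt_inv hx.ne'
    simp only [one_div]
    exact this.congr_deriv (by simp)
  have h3 := h2.mul h1
  have e : (fun x => W x 1 F 0) =
      fun x => 1 / x * Real.log (∫ z, Real.exp (x * F z) ∂(gI κ)) := by
    funext t
    exact W_one_zero F t
  rw [e]
  refine h3.congr_deriv ?_
  rw [KL_Mn]
  field_simp
  ring

/-- **The derivative of the relative entropy in the exponent.** -/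
theorem hasDerivAt_KL (h : LipB F B) (hB : 0 ≤ B) (x : ℝ) :
    HasDerivAt (KL F) (x * Vr F x) x := by
  have h1 := ((hasDerivAt_id x).mul (hasDerivAt_Mn h hB x)).sub (hasDerivAt_cgf h hB x)
  refine (h1.congr_deriv ?_).congr_of_eventuallyEq (Eventually.of_forall fun t => ?_)
  · simp
  · exact KL_Mn F t

theorem KL_mono (h : LipB F B) (hB : 0 ≤ B) : MonotoneOn (KL F) (Set.Ici 0) := by
  refine monotoneOn_of_deriv_nonneg (convex_Ici 0)
    (fun t _ => (hasDerivAt_KL h hB t).continuousAt.continuousWithinAt)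
    (fun t _ => (hasDerivAt_KL h hB t).differentiableAt.differentiableWithinAt) fun t ht => ?_
  rw [(hasDerivAt_KL h hB t).deriv]
  rw [interior_Ici] at ht
  exact mul_nonneg ht.le (Vr_nonneg h hB t)

lemma KL_zero (F : (κ → ℝ) → ℝ) : KL F 0 = 0 := by
  unfold KL
  simp

theorem KL_nonneg (h : LipB F B) (hB : 0 ≤ B) (hx : 0 ≤ x) : 0 ≤ KL F x := by
  have := KL_mono h hB (Set.mem_Ici.2 le_rfl) (Set.mem_Ici.2 hx) hx
  rwa [KL_zero] at this

lemma cont_sq (t : ℝ) : ContinuousAt (fun t : ℝ => t ^ 2) t := (continuous_pow 2).continuousAt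

/-- the exponent functional as an integral of the entropy -/
theorem W_sub (h : LipB F B) (hB : 0 ≤ B) {x y : ℝ} (hx : 0 < x) (hxy : x ≤ y) :
    W y 1 F 0 - W x 1 F 0 = ∫ t in x..y, KL F t / t ^ 2 := by
  have hpos : ∀ t ∈ Set.uIcc x y, 0 < t := fun t ht => by
    rw [Set.uIcc_of_le hxy] at ht
    exact hx.trans_le ht.1
  refine (intervalIntegral.integral_eq_sub_of_hasDerivAt
    (fun t ht => hasDerivAt_W h hB (hpos t ht)) ?_).symm
  refine ContinuousOn.intervalIntegrable fun t ht => ?_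
  have h1 := (hasDerivAt_KL h hB t).continuousAt
  exact (h1.div (cont_sq t) (pow_ne_zero 2 (hpos t ht).ne')).continuousWithinAt

/-- two-sided bound of a difference of the exponent functional by the entropies at the ends -/
theorem W_sub_bd (h : LipB F B) (hB : 0 ≤ B) {x y : ℝ} (hx : 0 < x) (hxy : x ≤ y) :
    KL F x * (1 / x - 1 / y) ≤ W y 1 F 0 - W x 1 F 0 ∧
      W y 1 F 0 - W x 1 F 0 ≤ KL F y * (1 / x - 1 / y) := by
  have hy : 0 < y := hx.trans_le hxy
  have hpos : ∀ t ∈ Set.uIcc x y, 0 < t := fun t ht => by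
    rw [Set.uIcc_of_le hxy] at ht
    exact hx.trans_le ht.1
  have hI : IntervalIntegrable (fun t : ℝ => KL F t / t ^ 2) volume x y :=
    ContinuousOn.intervalIntegrable fun t ht =>
      ((hasDerivAt_KL h hB t).continuousAt.div (cont_sq t)
        (pow_ne_zero 2 (hpos t ht).ne')).continuousWithinAt
  have hc : ∀ c : ℝ, IntervalIntegrable (fun t : ℝ => c / t ^ 2) volume x y := fun c =>
    ContinuousOn.intervalIntegrable fun t ht =>
      ((continuousAt_const (y := c)).div (cont_sq t)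
        (pow_ne_zero 2 (hpos t ht).ne')).continuousWithinAt
  have hval : ∀ c : ℝ, ∫ t in x..y, c / t ^ 2 = c * (1 / x - 1 / y) := by
    intro c
    have h1 : ∀ t ∈ Set.uIcc x y, HasDerivAt (fun t : ℝ => -(c / t)) (c / t ^ 2) t := by
      intro t ht
      have h2 := ((hasDerivAt_inv (hpos t ht).ne').const_mul c).neg
      refine (h2.congr_deriv ?_).congr_of_eventuallyEq (Eventually.of_forall fun s => ?_)
      · field_simp
      · simp [div_eq_mul_inv]
    rw [intervalIntegral.integral_eq_sub_of_hasDerivAt h1 (hc c)]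
    field_simp
    ring
  rw [W_sub h hB hx hxy]
  constructor
  · rw [← hval]
    refine intervalIntegral.integral_mono_on hxy (hc _) hI fun t ht => ?_
    have ht0 : 0 < t := hx.trans_le ht.1
    exact div_le_div_of_nonneg_right (KL_mono h hB (Set.mem_Ici.2 hx.le)
      (Set.mem_Ici.2 ht0.le) ht.1) (by positivity)
  · rw [← hval]
    refine intervalIntegral.integral_mono_on hxy hI (hc _) fun t ht => ?_
    have ht0 : 0 < t := hx.trans_le ht.1
    exact div_le_div_of_nonneg_right (KL_mono h hB (Set.mem_Ici.2 ht0.le)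
      (Set.mem_Ici.2 hy.le) ht.2) (by positivity)

end Vale.Agent.P146.H9
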