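import Vale.Agent.P146.H9.Mono
import Vale.Agent.P146.H281.U1
import Vale.Agent.P146.H347.Mod3
import Vale.Agent.P146.H529.Link3

/-!
Congruence and monotonicity in the shares for the ensemble `U` (`H281.U1`).

Field classes: `A` finite, `κ : LF → A`, amplitude `α : A → Th → ℝ` of the class, so that the level
`l` has the amplitude `α (κ l)`; `VF k` is the total variance of the class `k`.

* `ShU κ cB cF BL FL VF t u`: `∑ cB² = 1`, `∑_{κ l = k} cF² = VF k`, `∑_{BL} cB² = t`,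
  `∑_{l ∈ FL, κ l = k} cF² = u k * VF k`.
* `congrU`, `monoU2`, `monoU4`: the law of the conditional means depends on `(S, t, u)` only,
  second and fourth moments are nondecreasing in `(S, t, u)`.
* `KL_levelsU`: the relative entropy does not depend on the levels.
* `canU`: the two-level system with the given shares.
-/

open MeasureTheory ProbabilityTheory

namespace Vale.Agent.P146.H9.U

open Vale.Agent.P157.Lv Vale.Agent.P146.H425 Vale.Agent.P146.H332 Vale.Agent.P146.H646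
open Vale.Agent.P146.H196 Vale.Agent.P146.H246 Vale.Agent.P146.H347 Vale.Agent.P146.H325
  Vale.Agent.P146.H816
open Vale.Agent.P146.H281.U

set_option linter.unusedSectionVars false

variable {n : ℕ} {LB LF LB' LF' A : Type} [Fintype LB] [DecidableEq LB] [Fintype LF]
  [DecidableEq LF] [Fintype LB'] [DecidableEq LB'] [Fintype LF'] [DecidableEq LF']
  [Fintype A] [DecidableEq A]

/-- forget the levels -/
def p0U (n : ℕ) (LB : Type) (κ : LF → A) : Co n LB LF → Co n Unit A :=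
  Sum.map (Sum.map (fun e => (e.1, ())) fun e => (e.1, κ e.2)) id

/-- the coefficients of the levels -/
noncomputable def c0U (n : ℕ) (κ : LF → A) (cB : LB → ℝ) (cF : LF → ℝ) (VF : A → ℝ) :
    Co n LB LF → ℝ :=
  Sum.elim (Sum.elim (fun e => cB e.2) fun e => cF e.2 / √(VF (κ e.2))) fun _ => 1

/-- the shares -/
structure ShU (κ : LF → A) (cB : LB → ℝ) (cF : LF → ℝ) (BL : Finset LB) (FL : Finset LF)
    (VF : A → ℝ) (t : ℝ) (u : A → ℝ) : Prop where
  totB : ∑ l, cB l ^ 2 = 1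
  totF : ∀ k, ∑ l with κ l = k, cF l ^ 2 = VF k
  shB : ∑ l ∈ BL, cB l ^ 2 = t
  shF : ∀ k, ∑ l ∈ FL with κ l = k, cF l ^ 2 = u k * VF k

variable {κ : LF → A} {κ' : LF' → A} {cB : LB → ℝ} {cF : LF → ℝ} {cB' : LB' → ℝ} {cF' : LF' → ℝ}
variable {VF : A → ℝ} {S S' : Finset (Fin n)} {BL : Finset LB} {FL : Finset LF}
  {BL' : Finset LB'} {FL' : Finset LF'} {t t' : ℝ} {u u' : A → ℝ}
variable {Th : Type} [MeasurableSpace Th] {b M0 x : ℝ} {μ : Measure (Th × Xs n)}
  {α : A → Th → ℝ}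

/-- the basic energies: one level for each class -/
noncomputable abbrev SbU (n : ℕ) (b : ℝ) (VF : A → ℝ) (α : A → Th → ℝ) :
    Co n Unit A → Th × Xs n → ℝ :=
  SU b (fun _ : Unit => (1 : ℝ)) (fun k => √(VF k)) α

lemma VF_nonneg (hF : ∀ k, ∑ l with κ l = k, cF l ^ 2 = VF k) (k : A) : 0 ≤ VF k := by
  rw [← hF k]
  exact Finset.sum_nonneg fun _ _ => sq_nonneg _

lemma cF_zero (hF : ∀ k, ∑ l with κ l = k, cF l ^ 2 = VF k) (l : LF) (h0 : VF (κ l) = 0) :
    cF l = 0 := by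
  have h1 := hF (κ l)
  rw [h0, Finset.sum_eq_zero_iff_of_nonneg fun _ _ => sq_nonneg _] at h1
  exact pow_eq_zero_iff (two_ne_zero) |>.1 (h1 l (by simp))

theorem lvlU (hF : ∀ k, ∑ l with κ l = k, cF l ^ 2 = VF k) (b : ℝ) (α : A → Th → ℝ) :
    Lvl (p0U n LB κ) (c0U n κ cB cF VF) (SbU n b VF α) (SU b cB cF fun l => α (κ l)) := by
  intro j w
  rcases j with (⟨q, l⟩ | ⟨i, l⟩) | j
  · show b / √n * cB l * SkS q w.2 = cB l * (b / √n * 1 * SkS q w.2)
    ring
  · show cF l * α (κ l) w.1 * sp w.2 i =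
      cF l / √(VF (κ l)) * (√(VF (κ l)) * α (κ l) w.1 * sp w.2 i)
    by_cases h0 : VF (κ l) = 0
    · rw [cF_zero hF l h0]
      ring
    · have h1 : 0 < VF (κ l) := lt_of_le_of_ne (VF_nonneg hF _) (Ne.symm h0)
      have h2 : √(VF (κ l)) ≠ 0 := (Real.sqrt_pos.2 h1).ne'
      field_simp
  · show (0 : ℝ) = 1 * 0
    ring

/-! ### the fibres -/

lemma fib_bdU (q : Pair n) (g : Co n LB LF → ℝ) :
    ∑ j with p0U n LB κ j = bd A q (), g j = ∑ l, g (bd LF q l) := by
  have e : (Finset.univ.filter fun j => p0U n LB κ j = bd A q ()) =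
      Finset.univ.image fun l => bd LF q l := by
    ext j
    rcases j with (⟨q', l⟩ | ⟨i, l⟩) | j <;> simp [p0U, eq_comm]
  rw [e, Finset.sum_image]
  intro l _ l' _ h
  simpa using h

lemma fib_fdU (i : Fin n) (k : A) (g : Co n LB LF → ℝ) :
    ∑ j with p0U n LB κ j = fd Unit i k, g j = ∑ l with κ l = k, g (fd LB i l) := by
  have e : (Finset.univ.filter fun j => p0U n LB κ j = fd Unit i k) =
      (Finset.univ.filter fun l => κ l = k).image fun l => fd LB i l := by
    ext j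
    rw [Finset.mem_filter, Finset.mem_image]
    rcases j with (⟨q', l⟩ | ⟨i', l⟩) | j
    · refine ⟨fun h => absurd h.2 (by simp [p0U]), fun h => ?_⟩
      obtain ⟨l', _, h2⟩ := h
      exact absurd h2 (by simp)
    · constructor
      · rintro ⟨_, h⟩
        have h1 : (Sum.inl (Sum.inr (i', κ l)) : Co n Unit A) = Sum.inl (Sum.inr (i, k)) := h
        have h2 := Sum.inr.inj (Sum.inl.inj h1)
        have h3 : i' = i := congrArg Prod.fst h2
        have h4 : κ l = k := congrArg Prod.snd h2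
        exact ⟨l, by simp [h4], by rw [h3]⟩
      · rintro ⟨l', h1, h2⟩
        have h3 := Sum.inr.inj (Sum.inl.inj h2)
        have h4 : i = i' := congrArg Prod.fst h3
        have h5 : l' = l := congrArg Prod.snd h3
        refine ⟨Finset.mem_univ _, ?_⟩
        show (Sum.inl (Sum.inr (i', κ l)) : Co n Unit A) = Sum.inl (Sum.inr (i, k))
        rw [← h4, ← h5, (Finset.mem_filter.1 h1).2]
    · refine ⟨fun h => absurd h.2 (by simp [p0U]), fun h => ?_⟩
      obtain ⟨l', _, h2⟩ := h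
      exact absurd h2 (by simp)
  rw [e, Finset.sum_image]
  intro l _ l' _ h
  simpa using h

lemma fib_gdU (i : Fin n) (g : Co n LB LF → ℝ) :
    ∑ j with p0U n LB κ j = gd Unit A i, g j = g (gd LB LF i) := by
  have e : (Finset.univ.filter fun j => p0U n LB κ j = gd Unit A i) = {gd LB LF i} := by
    ext j
    rw [Finset.mem_filter, Finset.mem_singleton]
    refine ⟨fun h => ?_, fun h => ⟨Finset.mem_univ _, by rw [h]; rfl⟩⟩
    have h2 := h.2
    rcases j with (⟨q', l⟩ | ⟨i', l⟩) | j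
    · exact absurd h2 (by simp [p0U])
    · exact absurd h2 (by simp [p0U])
    · have h3 : (Sum.inr j : Co n Unit A) = Sum.inr i := h2
      rw [Sum.inr.inj h3]
  rw [e, Finset.sum_singleton]

/-- the total shares of the basic coordinates -/
noncomputable def totU (VF : A → ℝ) : Co n Unit A → ℝ :=
  Sum.elim (Sum.elim (fun _ => 1) fun e => if VF e.2 = 0 then 0 else 1) fun _ => 1

/-- the frozen shares of the basic coordinates -/
noncomputable def q0U (VF : A → ℝ) (S : Finset (Fin n)) (t : ℝ) (u : A → ℝ) :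
    Co n Unit A → ℝ :=
  Sum.elim (Sum.elim (fun e => if e.1.1.1 ∈ S ∧ e.1.1.2 ∈ S then t else 0)
    fun e => if e.1 ∈ S then (if VF e.2 = 0 then 0 else u e.2) else 0) fun _ => 0

theorem vf_totU (hB : ∑ l, cB l ^ 2 = 1) (hF : ∀ k, ∑ l with κ l = k, cF l ^ 2 = VF k)
    (e : Co n Unit A) : vf (p0U n LB κ) (c0U n κ cB cF VF) e = totU VF e := by
  unfold vf
  rcases e with (⟨q, l⟩ | ⟨i, k⟩) | j
  · rw [fib_bdU]
    exact hB
  · rw [fib_fdU]
    show ∑ l with κ l = k, (cF l / √(VF (κ l))) ^ 2 = if VF k = 0 then 0 else 1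
    have h1 : ∑ l with κ l = k, (cF l / √(VF (κ l))) ^ 2 = (∑ l with κ l = k, cF l ^ 2) / VF k := by
      rw [Finset.sum_div]
      refine Finset.sum_congr rfl fun l hl => ?_
      rw [(Finset.mem_filter.1 hl).2, div_pow, Real.sq_sqrt (VF_nonneg hF k)]
    rw [h1, hF k]
    split_ifs with h0
    · rw [h0, div_zero]
    · exact div_self h0
  · rw [fib_gdU]
    show (1 : ℝ) ^ 2 = 1
    norm_num

theorem vf_reU (hs : ShU κ cB cF BL FL VF t u) (S : Finset (Fin n)) (e : Co n Unit A) :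
    vf (p0U n LB κ) (re (Kset S BL FL) (c0U n κ cB cF VF)) e = q0U VF S t u e := by
  unfold vf
  rcases e with (⟨q, l⟩ | ⟨i, k⟩) | j
  · rw [fib_bdU]
    show ∑ l, (if bd LF q l ∈ Kset S BL FL then cB l else 0) ^ 2 =
      if q.1.1 ∈ S ∧ q.1.2 ∈ S then t else 0
    simp only [bd_memK]
    by_cases hq : q.1.1 ∈ S ∧ q.1.2 ∈ S
    · simp only [hq, true_and, and_self, if_true]
      have h1 : ∀ l, (if l ∈ BL then cB l else 0) ^ 2 = if l ∈ BL then cB l ^ 2 else 0 := by
        intro l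
        split_ifs
        · rfl
        · norm_num
      simp only [h1]
      rw [Finset.sum_ite_mem, Finset.univ_inter, hs.shB]
    · simp only [hq, false_and, if_false]
      simp
  · rw [fib_fdU]
    show ∑ l with κ l = k, (if fd LB i l ∈ Kset S BL FL then cF l / √(VF (κ l)) else 0) ^ 2 =
      if i ∈ S then (if VF k = 0 then 0 else u k) else 0
    simp only [fd_memK]
    by_cases hq : i ∈ S
    · simp only [hq, true_and, if_true]
      have h1 : ∑ l with κ l = k, (if l ∈ FL then cF l / √(VF (κ l)) else 0) ^ 2 =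
          (∑ l ∈ FL with κ l = k, cF l ^ 2) / VF k := by
        rw [Finset.sum_div, Finset.sum_filter, Finset.sum_filter,
          ← Finset.sum_subset (Finset.subset_univ FL)]
        · refine Finset.sum_congr rfl fun l hl => ?_
          rw [if_pos hl]
          by_cases hk : κ l = k
          · rw [if_pos hk, if_pos hk, hk, div_pow, Real.sq_sqrt (VF_nonneg hs.totF k)]
          · rw [if_neg hk, if_neg hk]
        · intro l _ hl
          rw [if_neg hl]
          simp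
      rw [h1, hs.shF k]
      split_ifs with h0
      · rw [h0, div_zero]
      · exact mul_div_cancel_right₀ _ h0
    · simp only [hq, false_and, if_false]
      simp
  · rw [fib_gdU]
    show (if gd LB LF j ∈ Kset S BL FL then (1 : ℝ) else 0) ^ 2 = 0
    rw [if_neg (gd_memK j)]
    norm_num

theorem ls_shU (hs : ShU κ cB cF BL FL VF t u) (S : Finset (Fin n)) :
    Ls (p0U n LB κ) (c0U n κ cB cF VF) (Kset S BL FL) (q0U VF S t u)
      (fun e => totU VF e - q0U VF S t u e) := by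
  refine ⟨vf_reU hs S, fun e => ?_⟩
  have h1 := vf_split (p0U n LB κ) (c0U n κ cB cF VF) (Kset S BL FL) e
  rw [vf_totU hs.totB hs.totF, vf_reU hs S] at h1
  linarith

lemma ShU.t0 (hs : ShU κ cB cF BL FL VF t u) : 0 ≤ t := by
  rw [← hs.shB]
  exact Finset.sum_nonneg fun _ _ => sq_nonneg _

lemma ShU.u0 (hs : ShU κ cB cF BL FL VF t u) (k : A) (hk : VF k ≠ 0) : 0 ≤ u k := by
  have h1 : 0 ≤ u k * VF k := by
    rw [← hs.shF k]
    exact Finset.sum_nonneg fun _ _ => sq_nonneg _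
  exact nonneg_of_mul_nonneg_left h1
    (lt_of_le_of_ne (VF_nonneg hs.totF k) (Ne.symm hk))

lemma q0U_mono (hs' : ShU κ' cB' cF' BL' FL' VF t' u') (hS : S ⊆ S') (ht : t ≤ t')
    (hu : ∀ k, u k ≤ u' k) (e : Co n Unit A) : q0U VF S t u e ≤ q0U VF S' t' u' e := by
  rcases e with (⟨q, l⟩ | ⟨i, k⟩) | j
  · show (if q.1.1 ∈ S ∧ q.1.2 ∈ S then t else 0) ≤ if q.1.1 ∈ S' ∧ q.1.2 ∈ S' then t' else 0
    by_cases h1 : q.1.1 ∈ S ∧ q.1.2 ∈ S
    · rw [if_pos h1, if_pos ⟨hS h1.1, hS h1.2⟩]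
      exact ht
    · rw [if_neg h1]
      have := hs'.t0
      split_ifs <;> linarith
  · show (if i ∈ S then (if VF k = 0 then 0 else u k) else 0) ≤
      if i ∈ S' then (if VF k = 0 then 0 else u' k) else 0
    by_cases hk : VF k = 0
    · simp [hk]
    · simp only [if_neg hk]
      by_cases h1 : i ∈ S
      · rw [if_pos h1, if_pos (hS h1)]
        exact hu k
      · rw [if_neg h1]
        have := hs'.u0 k hk
        split_ifs <;> linarith
  · exact le_refl (0 : ℝ)

section main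

variable {J : Type} [Fintype J] {f : J → Th × Xs n → ℝ}

/-- **CONGRUENCE** in the ensemble `U`: `Φ` of finitely many conditional means. -/
theorem congrU (hG : GM μ (SbU n b VF α) M0) (hs : ShU κ cB cF BL FL VF t u)
    (hs' : ShU κ' cB' cF' BL' FL' VF t u) (S : Finset (Fin n)) (x : ℝ) (hf : ∀ a, Bm (f a))
    {Φ : (J → ℝ) → ℝ} (hΦ : Measurable Φ)
    (hΦC : ∀ C, ∃ C', ∀ v : J → ℝ, (∀ a, |v a| ≤ C) → |Φ v| ≤ C') :
    eg μ (SU b cB cF fun l => α (κ l)) x
        (fun z => Φ fun a => cg μ (SU b cB cF fun l => α (κ l)) x (Kset S BL FL) (f a) z) =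
      eg μ (SU b cB' cF' fun l => α (κ' l)) x
        (fun z => Φ fun a => cg μ (SU b cB' cF' fun l => α (κ' l)) x (Kset S BL' FL') (f a) z) :=
  eg_congr hG (lvlU hs.totF b α) (lvlU hs'.totF b α) (ls_shU hs S) (ls_shU hs' S) x hf hΦ hΦC

/-- **MONOTONICITY** in the ensemble `U`, second moments. -/
theorem monoU2 (hG : GM μ (SbU n b VF α) M0) (hs : ShU κ cB cF BL FL VF t u)
    (hs' : ShU κ' cB' cF' BL' FL' VF t' u') (hS : S ⊆ S') (ht : t ≤ t') (hu : ∀ k, u k ≤ u' k)
    (x : ℝ) {r r' : Finset J} (hr : r ⊆ r') (hf : ∀ a, Bm (f a)) :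
    eg μ (SU b cB cF fun l => α (κ l)) x
        (fun z => ∑ a ∈ r, cg μ (SU b cB cF fun l => α (κ l)) x (Kset S BL FL) (f a) z ^ 2) ≤
      eg μ (SU b cB' cF' fun l => α (κ' l)) x
        (fun z => ∑ a ∈ r', cg μ (SU b cB' cF' fun l => α (κ' l)) x (Kset S' BL' FL') (f a) z ^ 2)
        :=
  eg_mono2 hG (lvlU hs.totF b α) (lvlU hs'.totF b α) (ls_shU hs S) (ls_shU hs' S')
    (q0U_mono hs' hS ht hu) (fun e => by ring) x hr hf

/-- **MONOTONICITY** in the ensemble `U`, fourth moments. -/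
theorem monoU4 (hG : GM μ (SbU n b VF α) M0) (hs : ShU κ cB cF BL FL VF t u)
    (hs' : ShU κ' cB' cF' BL' FL' VF t' u') (hS : S ⊆ S') (ht : t ≤ t') (hu : ∀ k, u k ≤ u' k)
    (x : ℝ) {r r' : Finset J} (hr : r ⊆ r') (hf : ∀ a, Bm (f a)) :
    eg μ (SU b cB cF fun l => α (κ l)) x
        (fun z => (∑ a ∈ r, cg μ (SU b cB cF fun l => α (κ l)) x (Kset S BL FL) (f a) z ^ 2) ^ 2) ≤
      eg μ (SU b cB' cF' fun l => α (κ' l)) x
        (fun z => (∑ a ∈ r', cg μ (SU b cB' cF' fun l => α (κ' l)) x (Kset S' BL' FL') (f a) z ^ 2)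
          ^ 2) :=
  eg_mono4 hG (lvlU hs.totF b α) (lvlU hs'.totF b α) (ls_shU hs S) (ls_shU hs' S')
    (q0U_mono hs' hS ht hu) (fun e => by ring) x hr hf

end main

/-! ### the relative entropy depends on the total shares only -/

theorem lm_levelsU (hG : GM μ (SbU n b VF α) M0) (hB : ∑ l, cB l ^ 2 = 1)
    (hF : ∀ k, ∑ l with κ l = k, cF l ^ 2 = VF k) (k z : ℝ)
    (hB' : ∑ l, cB' l ^ 2 = 1) (hF' : ∀ k, ∑ l with κ' l = k, cF' l ^ 2 = VF k) :
    H529.lm (lzm μ k (SU b cB cF fun l => α (κ l))) z =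
      H529.lm (lzm μ k (SU b cB' cF' fun l => α (κ' l))) z := by
  unfold H529.lm
  congr 1
  have e1 : ∀ y : Co n LB LF → ℝ, lzm μ k (SU b cB cF fun l => α (κ l)) y =
      lzm μ k (SbU n b VF α) (lf (p0U n LB κ) (c0U n κ cB cF VF) y) :=
    fun y => lz_lv (lvlU hF b α) k y
  have e2 : ∀ y : Co n LB' LF' → ℝ, lzm μ k (SU b cB' cF' fun l => α (κ' l)) y =
      lzm μ k (SbU n b VF α) (lf (p0U n LB' κ') (c0U n κ' cB' cF' VF) y) :=
    fun y => lz_lv (lvlU hF' b α) k y
  simp only [e1, e2]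
  rw [int_lf (p0U n LB κ) (c0U n κ cB cF VF)
    (G := fun y => Real.exp (z * lzm μ k (SbU n b VF α) y)) (eg_Zx hG k z).meas,
    int_lf (p0U n LB' κ') (c0U n κ' cB' cF' VF)
    (G := fun y => Real.exp (z * lzm μ k (SbU n b VF α) y)) (eg_Zx hG k z).meas]
  simp only [vf_totU hB hF, vf_totU hB' hF']

/-- **`KL` depends on the total shares only.** -/
theorem KL_levelsU (hG : GM μ (SbU n b VF α) M0) {M1 M2 : ℝ}
    (hG1 : GM μ (SU b cB cF fun l => α (κ l)) M1)
    (hG2 : GM μ (SU b cB' cF' fun l => α (κ' l)) M2) (hB : ∑ l, cB l ^ 2 = 1)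
    (hF : ∀ k, ∑ l with κ l = k, cF l ^ 2 = VF k) (hB' : ∑ l, cB' l ^ 2 = 1)
    (hF' : ∀ k, ∑ l with κ' l = k, cF' l ^ 2 = VF k) (y : ℝ) :
    KL (lzm μ 1 (SU b cB cF fun l => α (κ l))) y =
      KL (lzm μ 1 (SU b cB' cF' fun l => α (κ' l))) y :=
  H529.KL_congr (hG1.c11 1).lip (hG1.c11 1).B0 (hG2.c11 1).lip (hG2.c11 1).B0
    (fun z => lm_levelsU hG hB hF 1 z hB' hF') y

/-! ### the canonical two-level system -/

/-- the two levels of the bonds, `true` is revealed -/
noncomputable def cbU (t : ℝ) (i : Bool) : ℝ := if i then √t else √(1 - t)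

/-- the two levels of each class of fields -/
noncomputable def cfU (VF : A → ℝ) (u : A → ℝ) (l : A × Bool) : ℝ := √(VF l.1) * cbU (u l.1) l.2

/-- the revealed levels -/
def FLU (A : Type) [Fintype A] [DecidableEq A] : Finset (A × Bool) :=
  Finset.univ.filter fun l => l.2 = true

lemma cbU_sq (h0 : 0 ≤ t) (h1 : t ≤ 1) : cbU t true ^ 2 = t ∧ cbU t false ^ 2 = 1 - t := by
  unfold cbU
  simp only [if_true]
  exact ⟨Real.sq_sqrt h0, by simpa using Real.sq_sqrt (sub_nonneg.2 h1)⟩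

lemma sum_fst (k : A) (g : A × Bool → ℝ) :
    ∑ l with l.1 = k, g l = g (k, true) + g (k, false) := by
  have e : (Finset.univ.filter fun l : A × Bool => l.1 = k) =
      Finset.univ.image fun i : Bool => (k, i) := by
    ext l
    rcases l with ⟨k', i⟩
    cases i <;> simp [eq_comm]
  rw [e, Finset.sum_image fun i _ j _ h => by simpa using h, Fintype.sum_bool]

theorem canU (ht0 : 0 ≤ t) (ht1 : t ≤ 1) (hu0 : ∀ k, 0 ≤ u k) (hu1 : ∀ k, u k ≤ 1)
    (hV : ∀ k, 0 ≤ VF k) :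
    ShU (Prod.fst : A × Bool → A) (cbU t) (cfU VF u) {true} (FLU A) VF t u where
  totB := by
    rw [Fintype.sum_bool, (cbU_sq ht0 ht1).1, (cbU_sq ht0 ht1).2]
    ring
  totF k := by
    rw [sum_fst k fun l => cfU VF u l ^ 2]
    unfold cfU
    simp only [mul_pow, Real.sq_sqrt (hV k), (cbU_sq (hu0 k) (hu1 k)).1,
      (cbU_sq (hu0 k) (hu1 k)).2]
    ring
  shB := by rw [Finset.sum_singleton, (cbU_sq ht0 ht1).1]
  shF k := by
    have e : (Finset.filter (fun l : A × Bool => l.1 = k) (FLU A)) = {(k, true)} := by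
      ext l
      rcases l with ⟨k', i⟩
      simp [FLU, and_comm]
    rw [e, Finset.sum_singleton]
    unfold cfU
    rw [mul_pow, Real.sq_sqrt (hV k), (cbU_sq (hu0 k) (hu1 k)).1]
    ring

end Vale.Agent.P146.H9.U
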