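import Vale.Agent.P146.H9.Mono
import Vale.Agent.P146.H246.Inst
import Vale.Agent.P146.H347.Mod4
import Vale.Agent.P146.H529.Link4

/-!
Congruence and monotonicity in the shares for the modulated SK system of `H347`
(coordinates `Co n LB LF`, frozen set `Kset S BL FL`).

`H246.Sh cB cF BL FL CB CF t u`: `∑ cB² = CB²`, `∑ cF² = CF²`, `∑_{BL} cB² = t CB²`,
`∑_{FL} cF² = u CF²`.
-/

open MeasureTheory ProbabilityTheory

namespace Vale.Agent.P146.H9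

open Vale.Agent.P157.Lv Vale.Agent.P146.H425 Vale.Agent.P146.H332 Vale.Agent.P146.H646
open Vale.Agent.P146.H196 Vale.Agent.P146.H246 Vale.Agent.P146.H347 Vale.Agent.P146.H325
  Vale.Agent.P146.H816

set_option linter.unusedSectionVars false

variable {n : ℕ} {LB LF LB' LF' : Type} [Fintype LB] [DecidableEq LB] [Fintype LF]
  [DecidableEq LF] [Fintype LB'] [DecidableEq LB'] [Fintype LF'] [DecidableEq LF']
variable {b s η CB CF : ℝ} {cB : LB → ℝ} {cF : LF → ℝ} {cB' : LB' → ℝ} {cF' : LF' → ℝ}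
variable {S S' : Finset (Fin n)} {BL : Finset LB} {FL : Finset LF} {BL' : Finset LB'}
  {FL' : Finset LF'} {t u t' u' M0 : ℝ} {μ : Measure (ℝ × Xs n)}

lemma ls_sh (hB : 0 < CB) (hF : 0 < CF) (hs : Sh cB cF BL FL CB CF t u) (S : Finset (Fin n)) :
    Ls (p0 n LB LF) (c0 n cB cF CB CF) (Kset S BL FL) (q0 S t u) (fun e => 1 - q0 S t u e) :=
  Ls.of_one (vf_one hB hF hs) (vf_re hB hF hs)

lemma q0_mono (hS : S ⊆ S') (ht0 : 0 ≤ t') (hu0 : 0 ≤ u') (ht : t ≤ t') (hu : u ≤ u')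
    (e : Co n Unit Unit) : H246.q0 S t u e ≤ H246.q0 S' t' u' e := by
  rcases e with (⟨q, l⟩ | ⟨i, l⟩) | j
  · show (if q.1.1 ∈ S ∧ q.1.2 ∈ S then t else 0) ≤ if q.1.1 ∈ S' ∧ q.1.2 ∈ S' then t' else 0
    by_cases h1 : q.1.1 ∈ S ∧ q.1.2 ∈ S
    · rw [if_pos h1, if_pos ⟨hS h1.1, hS h1.2⟩]
      exact ht
    · rw [if_neg h1]
      split_ifs <;> linarith
  · show (if i ∈ S then u else 0) ≤ if i ∈ S' then u' else 0
    by_cases h1 : i ∈ S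
    · rw [if_pos h1, if_pos (hS h1)]
      exact hu
    · rw [if_neg h1]
      split_ifs <;> linarith
  · exact le_refl (0 : ℝ)

lemma Sh.t0 (hB : 0 < CB) (hs : Sh cB cF BL FL CB CF t u) : 0 ≤ t := by
  have h1 : 0 ≤ t * CB ^ 2 := by
    rw [← hs.shB]
    exact Finset.sum_nonneg fun _ _ => sq_nonneg _
  exact nonneg_of_mul_nonneg_left h1 (by positivity)

lemma Sh.u0 (hF : 0 < CF) (hs : Sh cB cF BL FL CB CF t u) : 0 ≤ u := by
  have h1 : 0 ≤ u * CF ^ 2 := by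
    rw [← hs.shF]
    exact Finset.sum_nonneg fun _ _ => sq_nonneg _
  exact nonneg_of_mul_nonneg_left h1 (by positivity)

variable {A : Type} [Fintype A] {f : A → ℝ × Xs n → ℝ}

/-- **CONGRUENCE** in the literal coordinates: `Φ` of finitely many conditional means. -/
theorem sk_congr (hG : GM μ (Sb n b CB CF s η) M0) (hB : 0 < CB) (hF : 0 < CF)
    (hs : Sh cB cF BL FL CB CF t u) (hs' : Sh cB' cF' BL' FL' CB CF t u) (S : Finset (Fin n))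
    (x : ℝ) (hf : ∀ a, Bm (f a)) {Φ : (A → ℝ) → ℝ} (hΦ : Measurable Φ)
    (hΦC : ∀ C, ∃ C', ∀ v : A → ℝ, (∀ a, |v a| ≤ C) → |Φ v| ≤ C') :
    eg μ (Sm b cB cF s η) x
        (fun z => Φ fun a => cg μ (Sm b cB cF s η) x (Kset S BL FL) (f a) z) =
      eg μ (Sm b cB' cF' s η) x
        (fun z => Φ fun a => cg μ (Sm b cB' cF' s η) x (Kset S BL' FL') (f a) z) :=
  eg_congr hG (lvl hB.ne' hF.ne') (lvl hB.ne' hF.ne') (ls_sh hB hF hs S) (ls_sh hB hF hs' S) x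
    hf hΦ hΦC

/-- **MONOTONICITY** in the literal coordinates: `∑_{a ∈ s} (cx (Kset S BL FL) ⟨f a⟩)²`. -/
theorem sk_mono2 (hG : GM μ (Sb n b CB CF s η) M0) (hB : 0 < CB) (hF : 0 < CF)
    (hs : Sh cB cF BL FL CB CF t u) (hs' : Sh cB' cF' BL' FL' CB CF t' u') (hS : S ⊆ S')
    (ht : t ≤ t') (hu : u ≤ u') (x : ℝ) {r r' : Finset A} (hr : r ⊆ r')
    (hf : ∀ a, Bm (f a)) :
    eg μ (Sm b cB cF s η) x
        (fun z => ∑ a ∈ r, cg μ (Sm b cB cF s η) x (Kset S BL FL) (f a) z ^ 2) ≤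
      eg μ (Sm b cB' cF' s η) x
        (fun z => ∑ a ∈ r', cg μ (Sm b cB' cF' s η) x (Kset S' BL' FL') (f a) z ^ 2) :=
  eg_mono2 hG (lvl hB.ne' hF.ne') (lvl hB.ne' hF.ne') (ls_sh hB hF hs S) (ls_sh hB hF hs' S')
    (q0_mono hS (Sh.t0 hB hs') (Sh.u0 hF hs') ht hu) (fun e => by ring) x hr hf

/-- **MONOTONICITY**, fourth moments -/
theorem sk_mono4 (hG : GM μ (Sb n b CB CF s η) M0) (hB : 0 < CB) (hF : 0 < CF)
    (hs : Sh cB cF BL FL CB CF t u) (hs' : Sh cB' cF' BL' FL' CB CF t' u') (hS : S ⊆ S')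
    (ht : t ≤ t') (hu : u ≤ u') (x : ℝ) {r r' : Finset A} (hr : r ⊆ r')
    (hf : ∀ a, Bm (f a)) :
    eg μ (Sm b cB cF s η) x
        (fun z => (∑ a ∈ r, cg μ (Sm b cB cF s η) x (Kset S BL FL) (f a) z ^ 2) ^ 2) ≤
      eg μ (Sm b cB' cF' s η) x
        (fun z => (∑ a ∈ r', cg μ (Sm b cB' cF' s η) x (Kset S' BL' FL') (f a) z ^ 2) ^ 2) :=
  eg_mono4 hG (lvl hB.ne' hF.ne') (lvl hB.ne' hF.ne') (ls_sh hB hF hs S) (ls_sh hB hF hs' S')
    (q0_mono hS (Sh.t0 hB hs') (Sh.u0 hF hs') ht hu) (fun e => by ring) x hr hf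

/-! ### the quantities of the master -/

/-- the amplitude measure and energies -/
noncomputable abbrev wM (n : ℕ) (lam b : ℝ) (cB : LB → ℝ) (cF : LF → ℝ) (s η c x : ℝ) :
    (Co n LB LF → ℝ) → ℝ := Zxm (H475.muA (Xs n) lam η c) 1 (Sm b cB cF s η) x

/-- the Gibbs average -/
noncomputable abbrev aM (n : ℕ) (lam b : ℝ) (cB : LB → ℝ) (cF : LF → ℝ) (s η c : ℝ)
    (f : ℝ × Xs n → ℝ) : (Co n LB LF → ℝ) → ℝ := avm (H475.muA (Xs n) lam η c) 1 (Sm b cB cF s η) f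

/-- `E ∑_{i,j ∈ S} (E[⟨σ_i σ_j⟩ | F])²`, `F = Kset S BL FL` -/
noncomputable def CCs (n : ℕ) (lam b : ℝ) (cB : LB → ℝ) (cF : LF → ℝ) (s η c x : ℝ)
    (S : Finset (Fin n)) (BL : Finset LB) (FL : Finset LF) : ℝ :=
  ex (g1 _) (wM n lam b cB cF s η c x) fun z => ∑ i ∈ S, ∑ j ∈ S,
    cx (g1 _) (Kset S BL FL) (wM n lam b cB cF s η c x)
      (aM n lam b cB cF s η c fun w => sp w.2 i * sp w.2 j) z ^ 2

/-- `E ∑_{p inside S} (E[⟨σ_p⟩ | F])²` -/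
noncomputable def PPs (n : ℕ) (lam b : ℝ) (cB : LB → ℝ) (cF : LF → ℝ) (s η c x : ℝ)
    (S : Finset (Fin n)) (BL : Finset LB) (FL : Finset LF) : ℝ :=
  ex (g1 _) (wM n lam b cB cF s η c x) fun z =>
    ∑ q ∈ Finset.univ.filter (fun q : Pair n => q.1.1 ∈ S ∧ q.1.2 ∈ S),
    cx (g1 _) (Kset S BL FL) (wM n lam b cB cF s η c x)
      (aM n lam b cB cF s η c fun w => SkS q w.2) z ^ 2

/-- `E ∑_{i ∈ S} (E[⟨σ_i⟩ | F])²` -/
noncomputable def MMs (n : ℕ) (lam b : ℝ) (cB : LB → ℝ) (cF : LF → ℝ) (s η c x : ℝ)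
    (S : Finset (Fin n)) (BL : Finset LB) (FL : Finset LF) : ℝ :=
  ex (g1 _) (wM n lam b cB cF s η c x) fun z => ∑ i ∈ S,
    cx (g1 _) (Kset S BL FL) (wM n lam b cB cF s η c x)
      (aM n lam b cB cF s η c fun w => sp w.2 i) z ^ 2

/-- `E (∑_{i ∈ S} (E[⟨σ_i⟩ | F])²)²` -/
noncomputable def M4s (n : ℕ) (lam b : ℝ) (cB : LB → ℝ) (cF : LF → ℝ) (s η c x : ℝ)
    (S : Finset (Fin n)) (BL : Finset LB) (FL : Finset LF) : ℝ :=
  ex (g1 _) (wM n lam b cB cF s η c x) fun z => (∑ i ∈ S,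
    cx (g1 _) (Kset S BL FL) (wM n lam b cB cF s η c x)
      (aM n lam b cB cF s η c fun w => sp w.2 i) z ^ 2) ^ 2

lemma bm_spp (i j : Fin n) : Bm fun w : ℝ × Xs n => sp w.2 i * sp w.2 j :=
  Bm.of ((measurable_sp i).mul (measurable_sp j)) (C := 1) fun w => by
    rw [abs_mul, abs_sp, abs_sp, one_mul]

lemma bm_SkS (q : Pair n) : Bm fun w : ℝ × Xs n => SkS q w.2 := bm_spp q.1.1 q.1.2

section master

variable {lam c x : ℝ}

theorem CCs_mono (hlam : 0 < lam) (hη : 0 ≤ η) (hB : 0 < CB) (hF : 0 < CF)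
    (hs : Sh cB cF BL FL CB CF t u) (hs' : Sh cB' cF' BL' FL' CB CF t' u') (hS : S ⊆ S')
    (ht : t ≤ t') (hu : u ≤ u') :
    CCs n lam b cB cF s η c x S BL FL ≤ CCs n lam b cB' cF' s η c x S' BL' FL' := by
  have h1 := sk_mono2 (b := b) (s := s) (η := η) (A := Fin n × Fin n)
    (gmA (n := n) b (fun _ : Unit => CB) (fun _ : Unit => CF) s hlam hη c) hB hF hs hs' hS ht hu x
    (Finset.product_subset_product hS hS) (f := fun a w => sp w.2 a.1 * sp w.2 a.2)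
    fun a => bm_spp a.1 a.2
  simp only [Finset.sum_product] at h1
  exact h1

theorem PPs_mono (hlam : 0 < lam) (hη : 0 ≤ η) (hB : 0 < CB) (hF : 0 < CF)
    (hs : Sh cB cF BL FL CB CF t u) (hs' : Sh cB' cF' BL' FL' CB CF t' u') (hS : S ⊆ S')
    (ht : t ≤ t') (hu : u ≤ u') :
    PPs n lam b cB cF s η c x S BL FL ≤ PPs n lam b cB' cF' s η c x S' BL' FL' :=
  sk_mono2 (b := b) (s := s) (η := η) (A := Pair n)
    (gmA (n := n) b (fun _ : Unit => CB) (fun _ : Unit => CF) s hlam hη c) hB hF hs hs' hS ht hu x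
    (r := Finset.univ.filter fun q : Pair n => q.1.1 ∈ S ∧ q.1.2 ∈ S)
    (r' := Finset.univ.filter fun q : Pair n => q.1.1 ∈ S' ∧ q.1.2 ∈ S')
    (Finset.monotone_filter_right _ fun _ _ h => ⟨hS h.1, hS h.2⟩)
    (f := fun q w => SkS q w.2) fun a => bm_SkS a

theorem MMs_mono (hlam : 0 < lam) (hη : 0 ≤ η) (hB : 0 < CB) (hF : 0 < CF)
    (hs : Sh cB cF BL FL CB CF t u) (hs' : Sh cB' cF' BL' FL' CB CF t' u') (hS : S ⊆ S')
    (ht : t ≤ t') (hu : u ≤ u') :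
    MMs n lam b cB cF s η c x S BL FL ≤ MMs n lam b cB' cF' s η c x S' BL' FL' :=
  sk_mono2 (b := b) (s := s) (η := η) (A := Fin n)
    (gmA (n := n) b (fun _ : Unit => CB) (fun _ : Unit => CF) s hlam hη c) hB hF hs hs' hS ht hu x
    hS (f := fun i w => sp w.2 i) fun a => bm_sp a

theorem M4s_mono (hlam : 0 < lam) (hη : 0 ≤ η) (hB : 0 < CB) (hF : 0 < CF)
    (hs : Sh cB cF BL FL CB CF t u) (hs' : Sh cB' cF' BL' FL' CB CF t' u') (hS : S ⊆ S')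
    (ht : t ≤ t') (hu : u ≤ u') :
    M4s n lam b cB cF s η c x S BL FL ≤ M4s n lam b cB' cF' s η c x S' BL' FL' :=
  sk_mono4 (b := b) (s := s) (η := η) (A := Fin n)
    (gmA (n := n) b (fun _ : Unit => CB) (fun _ : Unit => CF) s hlam hη c) hB hF hs hs' hS ht hu x
    hS (f := fun i w => sp w.2 i) fun a => bm_sp a

end master

/-! ### the entropy depends on the total shares only -/

lemma vf_tot (hB : 0 < CB) (hF : 0 < CF) (hcB : ∑ l, cB l ^ 2 = CB ^ 2)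
    (hcF : ∑ l, cF l ^ 2 = CF ^ 2) (e : Co n Unit Unit) :
    vf (p0 n LB LF) (c0 n cB cF CB CF) e = 1 :=
  vf_one hB hF (BL := ∅) (FL := ∅) (t := 0) (u := 0)
    ⟨hcB, hcF, by simp, by simp⟩ e

theorem lm_levels (hG : GM μ (Sb n b CB CF s η) M0) (hB : 0 < CB) (hF : 0 < CF)
    (hcB : ∑ l, cB l ^ 2 = CB ^ 2) (hcF : ∑ l, cF l ^ 2 = CF ^ 2) (k z : ℝ) :
    H529.lm (lzm μ k (Sm b cB cF s η)) z = H529.lm (lzm μ k (Sb n b CB CF s η)) z := by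
  unfold H529.lm
  congr 1
  have e1 : ∀ y : Co n LB LF → ℝ, lzm μ k (Sm b cB cF s η) y =
      lzm μ k (Sb n b CB CF s η) (lf (p0 n LB LF) (c0 n cB cF CB CF) y) :=
    fun y => lz_lv (lvl hB.ne' hF.ne') k y
  simp only [e1]
  rw [int_lf (p0 n LB LF) (c0 n cB cF CB CF)
    (G := fun y => Real.exp (z * lzm μ k (Sb n b CB CF s η) y)) (eg_Zx hG k z).meas]
  simp only [vf_tot hB hF hcB hcF, Real.sqrt_one, one_mul]

/-- **`KL` depends on `∑ cB²` and `∑ cF²` only.** -/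
theorem KL_levels (hG : GM μ (Sb n b CB CF s η) M0) {M1 : ℝ} (hG1 : GM μ (Sm b cB cF s η) M1)
    (hB : 0 < CB) (hF : 0 < CF) (hcB : ∑ l, cB l ^ 2 = CB ^ 2)
    (hcF : ∑ l, cF l ^ 2 = CF ^ 2) (y : ℝ) :
    KL (lzm μ 1 (Sm b cB cF s η)) y = KL (lzm μ 1 (Sb n b CB CF s η)) y :=
  H529.KL_congr (hG1.c11 1).lip (hG1.c11 1).B0 (hG.c11 1).lip (hG.c11 1).B0
    (fun z => lm_levels hG hB hF hcB hcF 1 z) y

end Vale.Agent.P146.H9
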