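import Vale.Agent.P146.H9.Mod

/-!
# P146: the secant response of the natural functional

`At β n x v = (2β/(n v)) (Φ(x,v) - Φ(x,0))` satisfies `0 ≤ At ≤ β` and
`d/dx At = (2β/(n v)) (KV(x,v) - KV(x,0)) / x²`; the entropy without field in terms of the centred
log-moments `kap β n x = log E exp (x (F - E F))`.
-/

open MeasureTheory ProbabilityTheory Filter Topology

namespace Vale.Agent.P146.H9

open Vale.Agent.P157.Lv Vale.Agent.P146 Vale.Agent.P146.H425 Vale.Agent.P146.H877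

variable {n : ℕ} {β x v : ℝ}

theorem At_eq (β : ℝ) (n : ℕ) (x v : ℝ) :
    At β n x v = 2 * β / (n * v) * (Phn n β x v - Phn n β x 0) := by
  unfold At Phn
  rw [← sub_div]
  rcases eq_or_ne x 0 with h | h
  · subst h
    simp
  · field_simp

theorem hasDerivAt_At (β : ℝ) (n : ℕ) (v : ℝ) (hx : 0 < x) :
    HasDerivAt (fun x => At β n x v)
      (2 * β / (n * v) * ((KV n β x v - KV n β x 0) / x ^ 2)) x := by
  have h := ((hasDerivAt_Phn n β v hx).sub (hasDerivAt_Phn n β 0 hx)).const_mul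
    (2 * β / (n * v))
  have e : (fun x => At β n x v) =
      fun x => 2 * β / (n * v) * (Phn n β x v - Phn n β x 0) := by
    funext t
    exact At_eq β n t v
  rw [e]
  refine h.congr_deriv ?_
  rw [← sub_div]

theorem At_nonneg (hβ : 0 ≤ β) (n : ℕ) (hx : 0 ≤ x) (hv : 0 ≤ v) : 0 ≤ At β n x v := by
  unfold At
  have h := LPhi_zero_le n β v hx
  exact mul_nonneg (by positivity) (by linarith)

theorem At_le (hβ : 0 ≤ β) (hn : 1 ≤ n) (hx : 0 < x) (hx1 : x ≤ 1) (hv : 0 < v) :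
    At β n x v ≤ β := by
  have hn0 : (0 : ℝ) < n := by exact_mod_cast hn
  unfold At
  have h := LPhi_le n β hx.le hx1 hv.le
  have h1 : LPhi n β x v - LPhi n β x 0 ≤ x * (n * v / 2) := by linarith
  refine (mul_le_mul_of_nonneg_left h1 (by positivity)).trans (le_of_eq ?_)
  field_simp

theorem Phn_zero_le (n : ℕ) (β v : ℝ) (hx : 0 ≤ x) : Phn n β x 0 ≤ Phn n β x v := by
  unfold Phn
  exact div_le_div_of_nonneg_right (LPhi_zero_le n β v hx) hx

theorem Phn_le (n : ℕ) (β : ℝ) (hx : 0 < x) (hx1 : x ≤ 1) (hv : 0 ≤ v) :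
    Phn n β x v ≤ Phn n β x 0 + n * v / 2 := by
  unfold Phn
  have h := LPhi_le n β hx.le hx1 hv
  rw [div_add' _ _ _ hx.ne', div_le_div_iff_of_pos_right hx]
  linarith

/-- `kap = LPhi - x E F` -/
theorem kap_eq (β : ℝ) (n : ℕ) (x : ℝ) :
    kap β n x = LPhi n β x 0 - x * ∫ g, freeEnergy n β g ∂(disorder n) := by
  have h := log_center n β x (∫ g, freeEnergy n β g ∂(disorder n))
  rw [← LPhi_zero] at h
  unfold kap
  linarith

theorem Phn_kap {y : ℝ} (β : ℝ) (n : ℕ) (hx : 0 < x) (hy : 0 < y) :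
    Phn n β y 0 - Phn n β x 0 = kap β n y / y - kap β n x / x := by
  rw [kap_eq, kap_eq]
  unfold Phn
  field_simp
  ring

/-- the entropy from the centred log-moments, two-sided -/
theorem KV_zero_bd {y : ℝ} (β : ℝ) (n : ℕ) (hx : 0 < x) (hxy : x ≤ y) :
    KV n β x 0 * (1 / x - 1 / y) ≤ kap β n y / y - kap β n x / x ∧
      kap β n y / y - kap β n x / x ≤ KV n β y 0 * (1 / x - 1 / y) := by
  rw [← Phn_kap β n hx (hx.trans_le hxy)]
  exact Phn_sub_bd n β 0 hx hxy

/-- the entropy with a field from that without: `K(x,v)` from below -/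
theorem KV_low {y : ℝ} (n : ℕ) (β : ℝ) (hx : 0 < x) (hxy : x ≤ y) (hy : y ≤ 1) (hv : 0 ≤ v) :
    Phn n β y 0 - Phn n β x 0 - n * v / 2 ≤ KV n β y v * (1 / x - 1 / y) := by
  have h1 := (Phn_sub_bd n β v hx hxy).2
  have h2 := Phn_zero_le n β v (hx.trans_le hxy).le
  have h3 := Phn_le n β hx (hxy.trans hy) hv
  linarith

/-- ... and from above -/
theorem KV_upp {y : ℝ} (n : ℕ) (β : ℝ) (hx : 0 < x) (hxy : x ≤ y) (hy : y ≤ 1) (hv : 0 ≤ v) :
    KV n β x v * (1 / x - 1 / y) ≤ Phn n β y 0 - Phn n β x 0 + n * v / 2 := by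
  have h1 := (Phn_sub_bd n β v hx hxy).1
  have h2 := Phn_zero_le n β v hx.le
  have h3 := Phn_le n β (hx.trans_le hxy) hy hv
  linarith

/-- sharper upper bound through the response at the right end -/
theorem KV_upp_At {y : ℝ} (hβ : 0 < β) (hn : 1 ≤ n) (hx : 0 < x) (hxy : x ≤ y) (hv : 0 < v) :
    KV n β x v * (1 / x - 1 / y) ≤ kap β n y / y - kap β n x / x +
      n * v / (2 * β) * (At β n y v - At β n x v) := by
  have hn0 : (0 : ℝ) < n := by exact_mod_cast hn
  have h1 := (Phn_sub_bd n β v hx hxy).1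
  have e1 : ∀ t, Phn n β t v = Phn n β t 0 + n * v / (2 * β) * At β n t v := by
    intro t
    rw [At_eq]
    field_simp
    ring
  rw [e1, e1] at h1
  have e2 := Phn_kap β n hx (hx.trans_le hxy)
  linarith

end Vale.Agent.P146.H9
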