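import Vale.Agent.P146.H9.KLd
import Vale.Agent.P146.H332.Fe
import Vale.Agent.P146.H325.Sk
import Vale.Agent.P146.H877.ContigK

/-!
# P146: the natural functional with a Gaussian field

`LPhi n β x v = log E exp (x F_v)`, `Phn = LPhi / x`, `KV` the relative entropy of the tilted law.
`d/dx Phn = KV / x²`, `KV` is nonnegative and nondecreasing in `x`,
`Phn x 0 ≤ Phn x v ≤ Phn x 0 + n v / 2`.
-/

open MeasureTheory ProbabilityTheory Filter Topology

namespace Vale.Agent.P146.H9

open Vale.Agent.P157.Lv Vale.Agent.P146 Vale.Agent.P146.H425 Vale.Agent.P146.H325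
open Vale.Agent.P146.H332 Vale.Agent.P146.H877

set_option linter.unusedSectionVars false

/-! ### the sum of two index types -/

section sum

variable {α γ : Type} [Fintype α] [Fintype γ]

theorem mp_sum : MeasurePreserving (fun q : (α → ℝ) × (γ → ℝ) => (Sum.elim q.1 q.2 : α ⊕ γ → ℝ))
    ((gI α).prod (gI γ)) (gI (α ⊕ γ)) := by
  have h1 := MeasureTheory.measurePreserving_sumPiEquivProdPi_symm (ι := α) (ι' := γ)
    (X := fun _ => ℝ) (fun _ => gaussianReal 0 1)
  have e : (fun q : (α → ℝ) × (γ → ℝ) => (Sum.elim q.1 q.2 : α ⊕ γ → ℝ)) =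
      (MeasurableEquiv.sumPiEquivProdPi (fun _ : α ⊕ γ => ℝ)).symm := by
    funext q j
    cases j <;> rfl
  rw [e]
  exact h1

theorem int_sum2 {G : (α ⊕ γ → ℝ) → ℝ} (hG : EG G) :
    ∫ w, G w ∂(gI (α ⊕ γ)) = ∫ w2, (∫ w1, G (Sum.elim w1 w2) ∂(gI α)) ∂(gI γ) := by
  have h2 := mp_sum (α := α) (γ := γ)
  have h3 : Integrable (fun q : (α → ℝ) × (γ → ℝ) => G (Sum.elim q.1 q.2))
      ((gI α).prod (gI γ)) :=
    MeasurePreserving.integrable_comp_of_integrable (g := G) h2 hG.integrable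
  have h4 : ∫ w, G w ∂(gI (α ⊕ γ)) = ∫ q : (α → ℝ) × (γ → ℝ), G (Sum.elim q.1 q.2)
        ∂((gI α).prod (gI γ)) := by
    conv_lhs => rw [← h2.map_eq]
    rw [integral_map h2.measurable.aemeasurable]
    rw [h2.map_eq]
    exact hG.meas.aestronglyMeasurable
  rw [h4, integral_prod_symm _ h3]

theorem int_sum1 {G : (α ⊕ γ → ℝ) → ℝ} (hG : EG G) :
    ∫ w, G w ∂(gI (α ⊕ γ)) = ∫ w1, (∫ w2, G (Sum.elim w1 w2) ∂(gI γ)) ∂(gI α) := by
  have h2 := mp_sum (α := α) (γ := γ)
  have h3 : Integrable (fun q : (α → ℝ) × (γ → ℝ) => G (Sum.elim q.1 q.2))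
      ((gI α).prod (gI γ)) :=
    MeasurePreserving.integrable_comp_of_integrable (g := G) h2 hG.integrable
  have h4 : ∫ w, G w ∂(gI (α ⊕ γ)) = ∫ q : (α → ℝ) × (γ → ℝ), G (Sum.elim q.1 q.2)
        ∂((gI α).prod (gI γ)) := by
    conv_lhs => rw [← h2.map_eq]
    rw [integral_map h2.measurable.aemeasurable]
    rw [h2.map_eq]
    exact hG.meas.aestronglyMeasurable
  rw [h4, integral_prod _ h3]

lemma eg_int {G : (α ⊕ γ → ℝ) → ℝ} (hG : EG G) :
    EG fun w1 : α → ℝ => ∫ w2, G (Sum.elim w1 w2) ∂(gI γ) := by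
  obtain ⟨C, k, hC, hk, hb⟩ := hG.bdd
  have hE : EG fun w2 : γ → ℝ => Real.exp (k * ‖w2‖) :=
    ⟨by fun_prop, 1, k, zero_le_one, hk, fun y => by
      rw [abs_of_pos (Real.exp_pos _), one_mul]⟩
  have hm : Measurable fun q : (α → ℝ) × (γ → ℝ) => G (Sum.elim q.1 q.2) := by
    refine hG.meas.comp (measurable_pi_lambda _ fun e => ?_)
    rcases e with e | e
    · exact (measurable_pi_apply e).comp measurable_fst
    · exact (measurable_pi_apply e).comp measurable_snd
  refine ⟨hm.stronglyMeasurable.integral_prod_right'.measurable,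
    C * ∫ w2, Real.exp (k * ‖w2‖) ∂(gI γ), k,
    mul_nonneg hC (integral_nonneg fun _ => (Real.exp_pos _).le), hk, fun w1 => ?_⟩
  have h1 : ∀ w2 : γ → ℝ, |G (Sum.elim w1 w2)| ≤
      C * Real.exp (k * ‖w1‖) * Real.exp (k * ‖w2‖) := by
    intro w2
    refine (hb _).trans ?_
    rw [mul_assoc, ← Real.exp_add, ← mul_add]
    refine mul_le_mul_of_nonneg_left (Real.exp_le_exp.2 (mul_le_mul_of_nonneg_left ?_ hk)) hC
    refine (pi_norm_le_iff_of_nonneg (by positivity)).2 fun e => ?_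
    rcases e with e | e
    · exact (norm_le_pi_norm w1 e).trans (by linarith [norm_nonneg w2])
    · exact (norm_le_pi_norm w2 e).trans (by linarith [norm_nonneg w1])
  refine (abs_integral_le_integral_abs).trans ?_
  refine (integral_mono_of_nonneg (Filter.Eventually.of_forall fun _ => abs_nonneg _)
    ((hE.integrable).const_mul _) (Filter.Eventually.of_forall h1)).trans ?_
  rw [integral_const_mul]
  exact le_of_eq (by ring)

/-- sections of a function of exponential growth -/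
lemma eg_elim {G : (α ⊕ γ → ℝ) → ℝ} (hG : EG G) (w1 : α → ℝ) :
    EG fun w2 : γ → ℝ => G (Sum.elim w1 w2) := by
  obtain ⟨C, k, hC, hk, hb⟩ := hG.bdd
  refine ⟨?_, C * Real.exp (k * ‖w1‖), k, by positivity, hk, fun w2 => ?_⟩
  · refine hG.meas.comp (measurable_pi_lambda _ fun e => ?_)
    rcases e with e | e
    · exact measurable_const
    · exact measurable_pi_apply e
  · refine (hb _).trans ?_
    rw [mul_assoc, ← Real.exp_add, ← mul_add]
    refine mul_le_mul_of_nonneg_left (Real.exp_le_exp.2 (mul_le_mul_of_nonneg_left ?_ hk)) hC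
    refine (pi_norm_le_iff_of_nonneg (by positivity)).2 fun e => ?_
    rcases e with e | e
    · exact (norm_le_pi_norm w1 e).trans (by linarith [norm_nonneg w2])
    · exact (norm_le_pi_norm w2 e).trans (by linarith [norm_nonneg w1])

end sum

variable {n : ℕ} {β x v : ℝ}

/-! ### the model -/

/-- bonds and fields -/
noncomputable def Sf (n : ℕ) (β v : ℝ) : Pair n ⊕ Fin n → (Fin n → ℤˣ) → ℝ :=
  Sum.elim (fun e σ => β / √n * SkS e σ) (fun i σ => √v * sp σ i)

/-- the free energy as a function of the bonds and the fields -/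
noncomputable def Fv (n : ℕ) (β v : ℝ) : (Pair n ⊕ Fin n → ℝ) → ℝ := lz 1 (Sf n β v)

/-- its gradient -/
noncomputable def Dv (n : ℕ) (β v : ℝ) : Pair n ⊕ Fin n → (Pair n ⊕ Fin n → ℝ) → ℝ :=
  fun e u => 1 * av 1 (Sf n β v) (Sf n β v e) u

theorem c11_Fv (n : ℕ) (β v : ℝ) :
    C11 (Fv n β v) (Dv n β v) (Kb 1 (Sf n β v)) (3 * Kb 1 (Sf n β v) ^ 2) :=
  c11_lz 1 (Sf n β v)

theorem cv_Fv (n : ℕ) (β v : ℝ) : Cv (Fv n β v) := cv_lz 1 (Sf n β v)

theorem Fv_elim (g : Pair n → ℝ) (z : Fin n → ℝ) :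
    Fv n β v (Sum.elim g z) = FH n β (√v • z) g := by
  unfold Fv FH lz Zp ez
  congr 1
  refine Finset.sum_congr rfl fun σ _ => ?_
  congr 1
  rw [one_mul, Fintype.sum_sum_type]
  congr 1
  · unfold hamiltonian
    rw [Finset.mul_sum, Finset.mul_sum]
    refine Finset.sum_congr rfl fun e _ => ?_
    simp only [Sf, Sum.elim_inl, SkS, sp]
    ring
  · refine Finset.sum_congr rfl fun i _ => ?_
    simp only [Sf, Sum.elim_inr, sp, Pi.smul_apply, smul_eq_mul]
    ring

theorem LPhi_eq (n : ℕ) (β x v : ℝ) :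
    LPhi n β x v = Real.log (∫ w, Real.exp (x * Fv n β v w) ∂(gI (Pair n ⊕ Fin n))) := by
  unfold LPhi
  rw [int_sum2 ((c11_Fv n β v).eg_exp x)]
  congr 1
  refine integral_congr_ae (Eventually.of_forall fun z => ?_)
  simp only
  refine integral_congr_ae (Eventually.of_forall fun g => ?_)
  simp only
  rw [Fv_elim]

/-- `Φ(x, v) = (1/x) log E exp (x F_v)` -/
noncomputable def Phn (n : ℕ) (β x v : ℝ) : ℝ := LPhi n β x v / x

/-- the relative entropy of the tilted law -/
noncomputable def KV (n : ℕ) (β x v : ℝ) : ℝ := KL (Fv n β v) x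

theorem Phn_W (n : ℕ) (β x v : ℝ) : Phn n β x v = W x 1 (Fv n β v) 0 := by
  rw [W_one_zero, ← LPhi_eq]
  unfold Phn
  ring

/-- **The derivative in the exponent.** -/
theorem hasDerivAt_Phn (n : ℕ) (β v : ℝ) (hx : 0 < x) :
    HasDerivAt (fun x => Phn n β x v) (KV n β x v / x ^ 2) x := by
  have h := hasDerivAt_W (c11_Fv n β v).lip (c11_Fv n β v).B0 hx
  have e : (fun x => Phn n β x v) = fun x => W x 1 (Fv n β v) 0 := by
    funext t
    exact Phn_W n β t v
  rw [e]
  exact h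

theorem KV_mono (n : ℕ) (β v : ℝ) : MonotoneOn (fun x => KV n β x v) (Set.Ici 0) :=
  KL_mono (c11_Fv n β v).lip (c11_Fv n β v).B0

theorem KV_nonneg (n : ℕ) (β v : ℝ) (hx : 0 ≤ x) : 0 ≤ KV n β x v :=
  KL_nonneg (c11_Fv n β v).lip (c11_Fv n β v).B0 hx

/-- the derivative of the entropy in the exponent -/
theorem hasDerivAt_KV (n : ℕ) (β v x : ℝ) :
    HasDerivAt (fun x => KV n β x v) (x * Vr (Fv n β v) x) x :=
  hasDerivAt_KL (c11_Fv n β v).lip (c11_Fv n β v).B0 x

theorem Phn_sub_bd (n : ℕ) (β v : ℝ) {x y : ℝ} (hx : 0 < x) (hxy : x ≤ y) :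
    KV n β x v * (1 / x - 1 / y) ≤ Phn n β y v - Phn n β x v ∧
      Phn n β y v - Phn n β x v ≤ KV n β y v * (1 / x - 1 / y) := by
  rw [Phn_W, Phn_W]
  exact W_sub_bd (c11_Fv n β v).lip (c11_Fv n β v).B0 hx hxy

theorem KV_eq_int (n : ℕ) (β v : ℝ) (hx : 0 < x) :
    KV n β x v = x ^ 2 / 2 * ∫ t in (0 : ℝ)..1, Phi x (Fv n β v) (Dv n β v) t :=
  KL_eq_int (c11_Fv n β v) hx

/-- the relative entropy through the mean -/
theorem KV_eq_sub (n : ℕ) (β x v : ℝ) :
    KV n β x v = x * Mn (Fv n β v) x - LPhi n β x v := by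
  rw [LPhi_eq]
  rfl

/-! ### without the field -/

theorem int_Fv_zero {G : ℝ → ℝ} (hG : EG fun w => G (Fv n β 0 w)) :
    ∫ w, G (Fv n β 0 w) ∂(gI (Pair n ⊕ Fin n)) = ∫ g, G (freeEnergy n β g) ∂(disorder n) := by
  rw [int_sum2 hG]
  have h1 : ∀ (w2 : Fin n → ℝ) (w1 : Pair n → ℝ), G (Fv n β 0 (Sum.elim w1 w2)) =
      G (freeEnergy n β w1) := by
    intro w2 w1
    rw [Fv_elim, Real.sqrt_zero, zero_smul, FH_zero]
  simp only [h1, integral_const, probReal_univ, one_smul]
  rfl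

lemma freeEnergy_lz (β : ℝ) (g : Pair n → ℝ) :
    freeEnergy n β g = lz (β / √n) SkS g := by
  unfold freeEnergy lz partitionFn Zp ez hamiltonian SkS sp
  congr 1
  refine Finset.sum_congr rfl fun σ _ => ?_
  congr 1
  have : ∑ p : Pair n, g p * ((σ p.1.1 : ℤ) : ℝ) * ((σ p.1.2 : ℤ) : ℝ) =
      ∑ e : Pair n, ((σ e.1.1 : ℤ) : ℝ) * ((σ e.1.2 : ℤ) : ℝ) * g e :=
    Finset.sum_congr rfl fun e _ => by ring
  rw [this]
  ring

/-- the relative entropy without the field is that of the free energy -/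
theorem KV_zero (n : ℕ) (β x : ℝ) : KV n β x 0 = KL (lz (β / √n) (SkS (n := n))) x := by
  have hf : ∀ g, lz (β / √n) (SkS (n := n)) g = freeEnergy n β g := fun g =>
    (freeEnergy_lz β g).symm
  have h1 : ∫ z, Real.exp (x * Fv n β 0 z) * Fv n β 0 z ∂(gI (Pair n ⊕ Fin n)) =
      ∫ g, Real.exp (x * freeEnergy n β g) * freeEnergy n β g ∂(disorder n) :=
    int_Fv_zero (G := fun t => Real.exp (x * t) * t)
      (((c11_Fv n β 0).eg_exp x).mul (c11_Fv n β 0).eg)
  have h2 : ∫ z, Real.exp (x * Fv n β 0 z) ∂(gI (Pair n ⊕ Fin n)) =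
      ∫ g, Real.exp (x * freeEnergy n β g) ∂(disorder n) :=
    int_Fv_zero (G := fun t => Real.exp (x * t)) ((c11_Fv n β 0).eg_exp x)
  unfold KV KL
  rw [h1, h2]
  simp only [hf]
  rfl

/-! ### the size of the field term -/

/-- the free energy is even in the field -/
lemma FH_neg (β : ℝ) (y : Fin n → ℝ) (g : Pair n → ℝ) : FH n β (-y) g = FH n β y g := by
  unfold FH
  congr 1
  refine Fintype.sum_equiv (Equiv.neg (Fin n → ℤˣ)) _ _ fun σ => ?_
  congr 1
  congr 1
  · unfold hamiltonian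
    congr 2
    refine Finset.sum_congr rfl fun e _ => ?_
    simp
  · refine Finset.sum_congr rfl fun i _ => ?_
    simp

/-- the free energy increases with the field -/
lemma FH_zero_le (β : ℝ) (y : Fin n → ℝ) (g : Pair n → ℝ) : FH n β 0 g ≤ FH n β y g := by
  have h1 := cv_Fv n β 1 (1 / 2) (1 / 2) (by norm_num) (by norm_num) (by norm_num)
    (Sum.elim g y) (Sum.elim g (-y))
  have e1 : (1 / 2 : ℝ) • (Sum.elim g y : Pair n ⊕ Fin n → ℝ) + (1 / 2 : ℝ) • Sum.elim g (-y) =
      Sum.elim g 0 := by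
    funext e
    rcases e with e | e
    · simp only [Pi.add_apply, Pi.smul_apply, Sum.elim_inl, smul_eq_mul]
      ring
    · simp only [Pi.add_apply, Pi.smul_apply, Sum.elim_inr, smul_eq_mul, Pi.neg_apply,
        Pi.zero_apply]
      ring
  rw [e1, Fv_elim, Fv_elim, Fv_elim, Real.sqrt_one, one_smul, one_smul, one_smul, FH_neg] at h1
  linarith

lemma eg_expF (n : ℕ) (β x v : ℝ) : EG fun w => Real.exp (x * Fv n β v w) :=
  (c11_Fv n β v).eg_exp x

theorem LPhi_zero_le (n : ℕ) (β v : ℝ) (hx : 0 ≤ x) : LPhi n β x 0 ≤ LPhi n β x v := by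
  rw [LPhi_eq, LPhi_eq]
  refine Real.log_le_log (integral_exp_pos (eg_expF n β x 0).integrable) ?_
  refine integral_mono (eg_expF n β x 0).integrable (eg_expF n β x v).integrable fun w => ?_
  simp only
  refine Real.exp_le_exp.2 (mul_le_mul_of_nonneg_left ?_ hx)
  have e : w = Sum.elim (fun e => w (Sum.inl e)) (fun i => w (Sum.inr i)) := by
    funext e
    rcases e with e | e <;> rfl
  rw [e, Fv_elim, Fv_elim, Real.sqrt_zero, zero_smul]
  exact FH_zero_le β _ _

/-- the annealed field -/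
lemma int_exp_FH (hv : 0 ≤ v) (g : Pair n → ℝ) :
    ∫ z, Real.exp (FH n β (√v • z) g) ∂(gI (Fin n)) =
      Real.exp (FH n β 0 g + n * v / 2) := by
  have h1 : ∀ z : Fin n → ℝ, Real.exp (FH n β (√v • z) g) =
      ∑ σ : Fin n → ℤˣ, Real.exp (β * hamiltonian n g σ) *
        Real.exp (∑ i, (√v * ((σ i : ℤ) : ℝ)) * z i) := by
    intro z
    unfold FH
    rw [Real.exp_log (FH_pos β _ g)]
    refine Finset.sum_congr rfl fun σ _ => ?_
    rw [← Real.exp_add]
    congr 2
    refine Finset.sum_congr rfl fun i _ => ?_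
    simp only [Pi.smul_apply, smul_eq_mul]
    ring
  have hl : ∀ a : Fin n → ℝ, EG fun z : Fin n → ℝ => Real.exp (∑ i, a i * z i) := by
    intro a
    have h2 : Lip fun z : Fin n → ℝ => ∑ i, a i * z i :=
      Lip.sum _ fun i _ => (Lip.coord i).const_mul _
    simpa using h2.exp_eg 1
  simp only [h1]
  rw [integral_finsetSum _ fun σ _ => ((hl _).const_mul _).integrable]
  have h2 : ∀ σ : Fin n → ℤˣ, ∫ z : Fin n → ℝ, Real.exp (β * hamiltonian n g σ) *
      Real.exp (∑ i, (√v * ((σ i : ℤ) : ℝ)) * z i) ∂(gI (Fin n)) =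
      Real.exp (β * hamiltonian n g σ) * Real.exp (n * v / 2) := by
    intro σ
    rw [integral_const_mul, (int_exp_lin _).2]
    congr 2
    have : ∀ i, (√v * ((σ i : ℤ) : ℝ)) ^ 2 = v := fun i => by
      rw [mul_pow, Real.sq_sqrt hv, unit_sq, mul_one]
    simp only [this]
    simp
  simp only [h2]
  rw [← Finset.sum_mul, Real.exp_add]
  congr 1
  rw [FH_zero]
  unfold freeEnergy partitionFn
  rw [Real.exp_log (Finset.sum_pos (fun _ _ => Real.exp_pos _) Finset.univ_nonempty)]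

/-- **The field costs at most the annealed amount.** -/
theorem LPhi_le (n : ℕ) (β : ℝ) (hx : 0 ≤ x) (hx1 : x ≤ 1) (hv : 0 ≤ v) :
    LPhi n β x v ≤ LPhi n β x 0 + x * (n * v / 2) := by
  have key : ∀ g : Pair n → ℝ, ∫ z, Real.exp (x * FH n β (√v • z) g) ∂(gI (Fin n)) ≤
      Real.exp (x * FH n β 0 g) * Real.exp (x * (n * v / 2)) := by
    intro g
    obtain ⟨c, hc⟩ : ∃ c, c = FH n β 0 g + n * v / 2 := ⟨_, rfl⟩
    have i1 : ∀ y : ℝ, Integrable (fun z => Real.exp (y * FH n β (√v • z) g)) (gI (Fin n)) := by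
      intro y
      have h := eg_elim (eg_expF n β y v) g
      simp only [Fv_elim] at h
      exact h.integrable
    have i2 : Integrable (fun z => Real.exp (FH n β (√v • z) g)) (gI (Fin n)) := by
      simpa using i1 1
    have h1 : ∀ z, Real.exp (x * FH n β (√v • z) g) ≤
        Real.exp (x * c) * (x * (Real.exp (-c) * Real.exp (FH n β (√v • z) g)) + (1 - x)) := by
      intro z
      have h2 := convexOn_exp.2 (Set.mem_univ (FH n β (√v • z) g - c)) (Set.mem_univ 0) hx
        (by linarith : 0 ≤ 1 - x) (by ring)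
      simp only [smul_eq_mul, mul_zero, add_zero, Real.exp_zero, mul_one] at h2
      have e1 : Real.exp (x * FH n β (√v • z) g) =
          Real.exp (x * c) * Real.exp (x * (FH n β (√v • z) g - c)) := by
        rw [← Real.exp_add]; congr 1; ring
      have e2 : Real.exp (-c) * Real.exp (FH n β (√v • z) g) =
          Real.exp (FH n β (√v • z) g - c) := by
        rw [← Real.exp_add]; congr 1; ring
      rw [e1, e2]
      exact mul_le_mul_of_nonneg_left h2 (Real.exp_pos _).le
    have h3 := integral_mono (i1 x) ((((i2.const_mul _).const_mul x).add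
      (integrable_const (1 - x))).const_mul (Real.exp (x * c))) h1
    refine h3.trans (le_of_eq ?_)
    have i3 : Integrable (fun z : Fin n → ℝ => x * (Real.exp (-c) *
        Real.exp (FH n β (√v • z) g))) (gI (Fin n)) := (i2.const_mul _).const_mul x
    simp only [Pi.add_apply]
    rw [integral_const_mul, integral_add i3 (integrable_const _), integral_const_mul,
      integral_const_mul, int_exp_FH hv, ← hc, ← Real.exp_add]
    simp only [neg_add_cancel, Real.exp_zero, integral_const, probReal_univ, smul_eq_mul]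
    rw [hc, ← Real.exp_add]
    ring_nf
  have h0 : LPhi n β x 0 + x * (n * v / 2) =
      Real.log ((∫ w, Real.exp (x * Fv n β 0 w) ∂(gI (Pair n ⊕ Fin n))) *
        Real.exp (x * (n * v / 2))) := by
    rw [Real.log_mul (integral_exp_pos (eg_expF n β x 0).integrable).ne' (Real.exp_pos _).ne',
      Real.log_exp, LPhi_eq]
  rw [h0, LPhi_eq]
  refine Real.log_le_log (integral_exp_pos (eg_expF n β x v).integrable) ?_
  rw [int_sum1 (eg_expF n β x v), int_sum1 (eg_expF n β x 0), ← integral_mul_const]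
  refine integral_mono (eg_int (eg_expF n β x v)).integrable
    ((eg_int (eg_expF n β x 0)).integrable.mul_const _) fun g => ?_
  simp only [Fv_elim, Real.sqrt_zero, zero_smul, integral_const, probReal_univ, one_smul]
  exact key g

end Vale.Agent.P146.H9
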