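import Vale.Agent.P146.H9.SideA
import Vale.Agent.P146.H695.Top

set_option linter.all false

/-!
# P146: the free energy deviates to both sides

From `∀ γ < 2 q, Var F_n ≥ n ^ γ` (`H695.LowV β (2 * q)`) and `Var F_n ≤ n ^ (1/3 + ε)`: the
probability that `F_n` lies more than `n ^ (q - ε)` below its mean is at least
`n ^ (2 q - 1/3 - ε)`, and the same above the mean.
-/

open MeasureTheory ProbabilityTheory Set Filter Topology

namespace Vale.Agent.P146.H9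

open Vale.Agent.P146.H605

theorem sides {β q : ℝ} (hβ : 0 < β) (hq0 : 0 < q) (hV : H695.LowV β (2 * q))
    (hU : ∀ ε : ℝ, 0 < ε → ∀ᶠ n : ℕ in atTop,
      Var[freeEnergy n β; disorder n] ≤ (n : ℝ) ^ (1 / 3 + ε)) :
    ∀ ε : ℝ, 0 < ε → ∀ᶠ n : ℕ in atTop,
      (n : ℝ) ^ (2 * q - 1 / 3 - ε) ≤ (disorder n).real {g |
        freeEnergy n β g ≤ ∫ h, freeEnergy n β h ∂(disorder n) - (n : ℝ) ^ (q - ε)} ∧
      (n : ℝ) ^ (2 * q - 1 / 3 - ε) ≤ (disorder n).real {g |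
        ∫ h, freeEnergy n β h ∂(disorder n) + (n : ℝ) ^ (q - ε) ≤ freeEnergy n β g} := by
  intro ε hε
  obtain ⟨κ, hκ⟩ : ∃ κ, κ = max 0 (q - ε / 8) := ⟨_, rfl⟩
  have hκ0 : 0 ≤ κ := by rw [hκ]; exact le_max_left _ _
  have hκ1 : q - ε / 8 ≤ κ := by rw [hκ]; exact le_max_right _ _
  have hκ2 : κ < q := by rw [hκ]; exact max_lt hq0 (by linarith)
  obtain ⟨c, hc⟩ : ∃ c, c = (q - κ) / 2 := ⟨_, rfl⟩
  have hc0 : 0 < c := by rw [hc]; linarith
  have h1 := H695.small_gen hV hκ0 (show κ + c < 2 * q / 2 by rw [hc]; linarith)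
  have t1 : Tendsto (fun n : ℕ => (n : ℝ) ^ c) atTop atTop :=
    (tendsto_rpow_atTop hc0).comp tendsto_natCast_atTop_atTop
  have t2 : Tendsto (fun n : ℕ => (n : ℝ) ^ (ε / 2)) atTop atTop :=
    (tendsto_rpow_atTop (by positivity)).comp tendsto_natCast_atTop_atTop
  filter_upwards [h1, hU (ε / 4) (by positivity), t1.eventually_ge_atTop 2,
    t2.eventually_ge_atTop 64, eventually_ge_atTop 1] with n g1 g2 g3 g4 g5
  have hn1 : (1 : ℝ) ≤ n := by exact_mod_cast g5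
  have hn0 : (0 : ℝ) < n := by linarith
  obtain ⟨m, hm⟩ : ∃ m, m = ∫ h, freeEnergy n β h ∂(disorder n) := ⟨_, rfl⟩
  rw [← hm]
  have hL : MemLp (freeEnergy n β) 2 (disorder n) := H641.memLp_freeEnergy n β
  have hI : Integrable (freeEnergy n β) (disorder n) := hL.integrable (by norm_num)
  have hM : Measurable (freeEnergy n β) := (H863.cont_freeEnergy n β).measurable
  have hr0 : 0 < (n : ℝ) ^ κ := by positivity
  have hs : (disorder n).real {g | |freeEnergy n β g - m| ≤ (n : ℝ) ^ κ} ≤ 1 / 2 := by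
    refine (g1 m).trans ?_
    rw [Real.rpow_neg hn0.le, one_div]
    exact inv_anti₀ (by norm_num) g3
  have hY : MemLp (fun g => freeEnergy n β g - m) 2 (disorder n) := hL.sub (memLp_const m)
  have hmz : ∫ g, (freeEnergy n β g - m) ∂(disorder n) = 0 := by
    rw [integral_sub hI (integrable_const m), ← hm, integral_const, smul_eq_mul, probReal_univ,
      one_mul, sub_self]
  have hv : ∫ g, (freeEnergy n β g - m) ^ 2 ∂(disorder n) = Var[freeEnergy n β; disorder n] := by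
    rw [variance_eq_integral hM.aemeasurable, hm]
  have s1 := side_neg hY (hM.sub_const m) hmz hr0 hs
  have s2 := side_pos hY (hM.sub_const m) hmz hr0 hs
  rw [hv] at s1 s2
  -- the numbers
  have k1 : (n : ℝ) ^ (q - ε) ≤ (n : ℝ) ^ κ / 8 := by
    have h2 : (n : ℝ) ^ (q - ε) * (n : ℝ) ^ (ε / 2) ≤ (n : ℝ) ^ κ := by
      rw [← Real.rpow_add hn0]
      exact Real.rpow_le_rpow_of_exponent_le hn1 (by linarith)
    have h3 : 0 < (n : ℝ) ^ (q - ε) := by positivity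
    nlinarith
  have k2 : ∀ p : ℝ, 0 ≤ p → ((n : ℝ) ^ κ) ^ 2 / 64 ≤ Var[freeEnergy n β; disorder n] * p →
      (n : ℝ) ^ (2 * q - 1 / 3 - ε) ≤ p := by
    intro p hp h2
    have h3 : ((n : ℝ) ^ κ) ^ 2 / 64 ≤ (n : ℝ) ^ (1 / 3 + ε / 4) * p :=
      h2.trans (mul_le_mul_of_nonneg_right g2 hp)
    have h4 : (n : ℝ) ^ (2 * q - ε / 4) ≤ ((n : ℝ) ^ κ) ^ 2 := by
      rw [← Real.rpow_natCast, ← Real.rpow_mul hn0.le]
      refine Real.rpow_le_rpow_of_exponent_le hn1 ?_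
      push_cast
      linarith
    have h5 : (n : ℝ) ^ (2 * q - 1 / 3 - ε) * (n : ℝ) ^ (1 / 3 + ε / 4) * (n : ℝ) ^ (ε / 2) =
        (n : ℝ) ^ (2 * q - ε / 4) := by
      rw [← Real.rpow_add hn0, ← Real.rpow_add hn0]
      congr 1
      ring
    have h6 : 0 < (n : ℝ) ^ (2 * q - 1 / 3 - ε) := by positivity
    have h7 : 0 < (n : ℝ) ^ (1 / 3 + ε / 4) := by positivity
    have h8 : (n : ℝ) ^ (2 * q - 1 / 3 - ε) * (n : ℝ) ^ (1 / 3 + ε / 4) * 64 ≤
        (n : ℝ) ^ (2 * q - 1 / 3 - ε) * (n : ℝ) ^ (1 / 3 + ε / 4) * (n : ℝ) ^ (ε / 2) :=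
      mul_le_mul_of_nonneg_left g4 (by positivity)
    have h9 : (n : ℝ) ^ (1 / 3 + ε / 4) * (n : ℝ) ^ (2 * q - 1 / 3 - ε) ≤
        (n : ℝ) ^ (1 / 3 + ε / 4) * p := by
      linarith
    exact le_of_mul_le_mul_left h9 h7
  refine ⟨(k2 _ measureReal_nonneg s1).trans ?_, (k2 _ measureReal_nonneg s2).trans ?_⟩
  · refine measureReal_mono fun g hg => ?_
    simp only [mem_setOf_eq] at hg ⊢
    linarith
  · refine measureReal_mono fun g hg => ?_
    simp only [mem_setOf_eq] at hg ⊢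
    linarith

end Vale.Agent.P146.H9
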