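import Vale.Agent.P146.H246.Levels
import Vale.Agent.P146.H347.Mod1
import Vale.Agent.P146.H646.RowW

/-!
Congruence and monotonicity in the shares.

`Ls p c K q r`: in the level system `(p, c)` the frozen coordinates `K` carry the share `q` and the
other coordinates the share `r` of the basic coordinates.

* `ex_congr`: the law of the conditional means depends on `q, r` only.
* `ex_mono2`, `ex_mono4`: `E ∑ (E[φ_a | K])²` and `E (∑ (E[φ_a | K])²)²` are nondecreasing in `q`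
  at constant total share `q + r`.
* `eg_congr`, `eg_mono2`, `eg_mono4`: the same for Gibbs systems with levels.
-/

open MeasureTheory ProbabilityTheory

namespace Vale.Agent.P146.H9

open Vale.Agent.P157.Lv Vale.Agent.P146.H425 Vale.Agent.P146.H332 Vale.Agent.P146.H646
open Vale.Agent.P146.H196 Vale.Agent.P146.H246
open Vale.Agent.P146.H347 (g1)
open Vale.Agent.P146.H325 (Tc)

set_option linter.unusedSectionVars false

section gen

variable {κ κ' ι : Type} [Fintype κ] [DecidableEq κ] [Fintype κ'] [DecidableEq κ']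
  [Fintype ι] [DecidableEq ι]
variable {p : κ → ι} {c : κ → ℝ} {K : Finset κ} {p' : κ' → ι} {c' : κ' → ℝ} {K' : Finset κ'}
variable {q r q' r' : ι → ℝ}

/-- the shares of the frozen and of the other coordinates -/
structure Ls (p : κ → ι) (c : κ → ℝ) (K : Finset κ) (q r : ι → ℝ) : Prop where
  sh : ∀ e, vf p (re K c) e = q e
  hd : ∀ e, vf p (co K c) e = r e

lemma Ls.q0 (h : Ls p c K q r) (e : ι) : 0 ≤ q e := by
  rw [← h.sh e]
  exact vf_nonneg _ _ _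

lemma Ls.r0 (h : Ls p c K q r) (e : ι) : 0 ≤ r e := by
  rw [← h.hd e]
  exact vf_nonneg _ _ _

lemma Ls.tot (h : Ls p c K q r) (e : ι) : vf p c e = q e + r e := by
  rw [← vf_split p c K e, h.sh, h.hd]

lemma Ls.of_one (h1 : ∀ e, vf p c e = 1) (h2 : ∀ e, vf p (re K c) e = q e) :
    Ls p c K q (fun e => 1 - q e) := by
  refine ⟨h2, fun e => ?_⟩
  have h3 := vf_split p c K e
  rw [h1, h2] at h3
  linarith

/-- the mean of a function of the position -/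
theorem ex_pos (h : Ls p c K q r) {W Φ : (ι → ℝ) → ℝ} (hW : EG W) (hΦ : EG Φ) :
    ex (g1 κ) (fun z => W (lf p c z)) (fun z => Φ (lf p (re K c) z)) =
      (∫ y, Tc r W (fun e => √(q e) * y e) * Φ (fun e => √(q e) * y e) ∂(gI ι)) /
        ∫ y, W (fun e => √(q e + r e) * y e) ∂(gI ι) := by
  unfold ex
  have e1 : vf p (re K c) = q := funext h.sh
  have e2 : vf p (co K c) = r := funext h.hd
  have e3 : vf p c = fun e => q e + r e := funext h.tot
  congr 1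
  · have := int_pos (p := p) (c := c) (K := K) hW hΦ
    rw [e1, e2] at this
    exact this
  · have := int_lf p c hW.meas
    rw [e3] at this
    exact this

/-- the conditional mean is a function of the position -/
theorem cx_eq (h : Ls p c K q r) {W φ : (ι → ℝ) → ℝ} (hW : Measurable W) (hφ : Measurable φ)
    (z : κ → ℝ) :
    cx (g1 κ) K (fun z => W (lf p c z)) (fun z => φ (lf p c z)) z =
      cT r W φ (lf p (re K c) z) := by
  have e2 : vf p (co K c) = r := funext h.hd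
  rw [← e2]
  exact cx_T hW hφ z

/-- the level weight is admissible -/
theorem wt_lv {W : (ι → ℝ) → ℝ} (hW : EG W) (hpos : ∀ y, 0 < W y) (p : κ → ι) (c : κ → ℝ) :
    Wt (g1 κ) (fun z => W (lf p c z)) where
  pos z := hpos _
  meas := hW.meas.comp (measurable_lf p c)
  sec K z := by
    obtain ⟨C, a, hC, ha, hb⟩ := (eg_lf hW p c).bdd
    have h1 : EG fun z' : κ → ℝ => W (lf p c (glue K z z')) := by
      refine ⟨hW.meas.comp ((measurable_lf p c).comp (measurable_glue_right K z)),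
        C * Real.exp (a * ‖z‖), a, mul_nonneg hC (Real.exp_pos _).le, ha, fun z' => ?_⟩
      refine (hb _).trans ?_
      rw [mul_assoc, ← Real.exp_add]
      refine mul_le_mul_of_nonneg_left (Real.exp_le_exp.2 ?_) hC
      rw [← mul_add]
      refine mul_le_mul_of_nonneg_left ?_ ha
      rw [pi_norm_le_iff_of_nonneg (by positivity)]
      intro e
      by_cases he : e ∈ K
      · rw [glue_mem he]
        have := norm_le_pi_norm z e
        have h2 := norm_nonneg z'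
        linarith
      · rw [glue_not_mem he]
        have := norm_le_pi_norm z' e
        have h2 := norm_nonneg z
        linarith
    exact h1.integrable

lemma bm_lv {φ : (ι → ℝ) → ℝ} (hφ : BM φ) (p : κ → ι) (c : κ → ℝ) :
    BM fun z : κ → ℝ => φ (lf p c z) := by
  obtain ⟨C, hC⟩ := hφ.bd
  exact ⟨hφ.meas.comp (measurable_lf p c), C, fun z => hC _⟩

lemma bm_EG {φ : (ι → ℝ) → ℝ} (hφ : BM φ) : EG φ := by
  obtain ⟨C, hC⟩ := hφ.bd
  exact EG.of_bdd hφ.meas hC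

/-- bound of the conditional mean as a function of the position -/
lemma abs_cT {W φ : (ι → ℝ) → ℝ} (hW : EG W) (hpos : ∀ y, 0 < W y) (hφ : Measurable φ) {C : ℝ}
    (hC : ∀ y, |φ y| ≤ C) (r : ι → ℝ) (y : ι → ℝ) : |cT r W φ y| ≤ C := by
  have hE : EG fun y => W y * φ y := hW.mul (EG.of_bdd hφ hC)
  have i1 := (H325.EG.aff hW y (fun e => √(r e))).integrable
  have i2 := (H325.EG.aff hE y (fun e => √(r e))).integrable
  have hp : 0 < Tc r W y := by
    unfold Tc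
    rw [integral_pos_iff_support_of_nonneg (fun z' => (hpos _).le) i1]
    have : Function.support (fun z : ι → ℝ => W (fun e => y e + √(r e) * z e)) = Set.univ := by
      ext z'
      simp [(hpos _).ne']
    rw [this]
    simp
  unfold cT
  rw [abs_div, abs_of_pos hp, div_le_iff₀ hp]
  unfold Tc
  refine (abs_integral_le_integral_abs).trans ?_
  rw [← integral_const_mul]
  refine integral_mono i2.abs (i1.const_mul C) fun z' => ?_
  show |W _ * φ _| ≤ C * W _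
  rw [abs_mul, abs_of_pos (hpos _), mul_comm]
  exact mul_le_mul_of_nonneg_right (hC _) (hpos _).le

lemma meas_cT' {W φ : (ι → ℝ) → ℝ} (hW : EG W) (hφ : EG φ) (r : ι → ℝ) :
    Measurable (cT r W φ) :=
  (H325.EG.Tc (hW.mul hφ) r).meas.div (H325.EG.Tc hW r).meas

/-- **CONGRUENCE.** The law of the conditional means depends on the shares only. -/
theorem ex_congr (h : Ls p c K q r) (h' : Ls p' c' K' q r) {W : (ι → ℝ) → ℝ} (hW : EG W)
    (hpos : ∀ y, 0 < W y) {A : Type} {φ : A → (ι → ℝ) → ℝ} [Fintype A]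
    (hφ : ∀ a, BM (φ a)) {Φ : (A → ℝ) → ℝ} (hΦ : Measurable Φ)
    (hΦC : ∀ C, ∃ C', ∀ v : A → ℝ, (∀ a, |v a| ≤ C) → |Φ v| ≤ C') :
    ex (g1 κ) (fun z => W (lf p c z)) (fun z => Φ fun a =>
        cx (g1 κ) K (fun z => W (lf p c z)) (fun z => φ a (lf p c z)) z) =
      ex (g1 κ') (fun z => W (lf p' c' z)) (fun z => Φ fun a =>
        cx (g1 κ') K' (fun z => W (lf p' c' z)) (fun z => φ a (lf p' c' z)) z) := by
  choose Cf hCf using fun a => (hφ a).bd
  set C0 : ℝ := ∑ a, |Cf a| with hC0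
  have hb : ∀ a y, |cT r W (φ a) y| ≤ C0 := by
    intro a y
    refine (abs_cT hW hpos (hφ a).meas (hCf a) r y).trans ?_
    refine (le_abs_self _).trans ?_
    exact Finset.single_le_sum (f := fun a => |Cf a|) (fun _ _ => abs_nonneg _)
      (Finset.mem_univ a)
  obtain ⟨C', hC'⟩ := hΦC C0
  have hE : EG fun y => Φ fun a => cT r W (φ a) y := by
    refine EG.of_bdd (hΦ.comp (measurable_pi_lambda _ fun a =>
      meas_cT' hW (bm_EG (hφ a)) r)) (C := C') fun y => hC' _ fun a => hb a y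
  have e1 : (fun z : κ → ℝ => Φ fun a =>
      cx (g1 κ) K (fun z => W (lf p c z)) (fun z => φ a (lf p c z)) z) =
      fun z => (fun y => Φ fun a => cT r W (φ a) y) (lf p (re K c) z) := by
    funext z
    simp only [cx_eq h hW.meas (hφ _).meas]
  have e2 : (fun z : κ' → ℝ => Φ fun a =>
      cx (g1 κ') K' (fun z => W (lf p' c' z)) (fun z => φ a (lf p' c' z)) z) =
      fun z => (fun y => Φ fun a => cT r W (φ a) y) (lf p' (re K' c') z) := by
    funext z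
    simp only [cx_eq h' hW.meas (hφ _).meas]
  rw [e1, e2, ex_pos h hW hE, ex_pos h' hW hE]

/-! ### a system which refines two given shares -/

/-- the projection of the three-level system -/
def p3 (ι : Type) : ι ⊕ ι ⊕ ι → ι := Sum.elim id (Sum.elim id id)

/-- the coefficients of the three-level system -/
noncomputable def c3 (a b d : ι → ℝ) : ι ⊕ ι ⊕ ι → ℝ :=
  Sum.elim (fun e => √(a e)) (Sum.elim (fun e => √(b e)) fun e => √(d e))

/-- the first level -/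
def K3a (ι : Type) [Fintype ι] [DecidableEq ι] : Finset (ι ⊕ ι ⊕ ι) :=
  Finset.univ.filter fun j => j.isLeft = true

/-- the first two levels -/
def K3b (ι : Type) [Fintype ι] [DecidableEq ι] : Finset (ι ⊕ ι ⊕ ι) :=
  Finset.univ.filter fun j => Sum.elim (fun _ => true) (Sum.elim (fun _ => true) fun _ => false) j
    = true

lemma K3_sub (ι : Type) [Fintype ι] [DecidableEq ι] : K3a ι ⊆ K3b ι := by
  intro j hj
  rcases j with j | j | j <;> simp_all [K3a, K3b]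

lemma vf_p3 (g : ι ⊕ ι ⊕ ι → ℝ) (e : ι) :
    vf (p3 ι) g e = g (Sum.inl e) ^ 2 + g (Sum.inr (Sum.inl e)) ^ 2 +
      g (Sum.inr (Sum.inr e)) ^ 2 := by
  unfold vf
  rw [Finset.sum_filter, Fintype.sum_sum_type, Fintype.sum_sum_type]
  have e1 : (∑ j, if p3 ι (Sum.inl j) = e then g (Sum.inl j) ^ 2 else 0) =
      g (Sum.inl e) ^ 2 := by
    refine (Finset.sum_eq_single e (fun j _ hj => ?_) fun h => absurd (Finset.mem_univ e) h).trans
      ?_
    · exact if_neg hj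
    · exact if_pos rfl
  have e2 : (∑ j, if p3 ι (Sum.inr (Sum.inl j)) = e then g (Sum.inr (Sum.inl j)) ^ 2 else 0) =
      g (Sum.inr (Sum.inl e)) ^ 2 := by
    refine (Finset.sum_eq_single e (fun j _ hj => ?_) fun h => absurd (Finset.mem_univ e) h).trans
      ?_
    · exact if_neg hj
    · exact if_pos rfl
  have e3 : (∑ j, if p3 ι (Sum.inr (Sum.inr j)) = e then g (Sum.inr (Sum.inr j)) ^ 2 else 0) =
      g (Sum.inr (Sum.inr e)) ^ 2 := by
    refine (Finset.sum_eq_single e (fun j _ hj => ?_) fun h => absurd (Finset.mem_univ e) h).trans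
      ?_
    · exact if_neg hj
    · exact if_pos rfl
  rw [e1, e2, e3]
  ring

lemma ls3a {a b d : ι → ℝ} (ha : ∀ e, 0 ≤ a e) (hb : ∀ e, 0 ≤ b e) (hd : ∀ e, 0 ≤ d e) :
    Ls (p3 ι) (c3 a b d) (K3a ι) a (fun e => b e + d e) := by
  constructor <;> intro e
  · rw [vf_p3]
    simp [re, K3a, c3, Real.sq_sqrt (ha e)]
  · rw [vf_p3]
    simp [co, K3a, c3, Real.sq_sqrt (hb e), Real.sq_sqrt (hd e)]

lemma ls3b {a b d : ι → ℝ} (ha : ∀ e, 0 ≤ a e) (hb : ∀ e, 0 ≤ b e) (hd : ∀ e, 0 ≤ d e) :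
    Ls (p3 ι) (c3 a b d) (K3b ι) (fun e => a e + b e) d := by
  constructor <;> intro e
  · rw [vf_p3]
    simp [re, K3b, c3, Real.sq_sqrt (ha e), Real.sq_sqrt (hb e)]
  · rw [vf_p3]
    simp [co, K3b, c3, Real.sq_sqrt (hd e)]

/-! ### monotonicity -/

section jensen

variable {w : (κ → ℝ) → ℝ} {K1 K2 : Finset κ} {A : Type}

lemma bsq' {Ψ : (κ → ℝ) → ℝ} (h : BM Ψ) : BM (fun z => Ψ z ^ 2) := by
  simpa only [sq] using h.mul h

lemma bm_s2 (hw : Wt (g1 κ) w) (s : Finset A) {X : A → (κ → ℝ) → ℝ} (hX : ∀ a ∈ s, BM (X a))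
    (K : Finset κ) : BM fun z => ∑ a ∈ s, cx (g1 κ) K w (X a) z ^ 2 :=
  BM.sum s fun a ha => bsq' (hw.bm_cx K (hX a ha))

lemma s2_le (hw : Wt (g1 κ) w) (hK : K1 ⊆ K2) (s : Finset A) {X : A → (κ → ℝ) → ℝ}
    (hX : ∀ a ∈ s, BM (X a)) (z : κ → ℝ) :
    ∑ a ∈ s, cx (g1 κ) K1 w (X a) z ^ 2 ≤
      cx (g1 κ) K1 w (fun z => ∑ a ∈ s, cx (g1 κ) K2 w (X a) z ^ 2) z := by
  rw [cx_sum hw s fun a ha => bsq' (hw.bm_cx K2 (hX a ha))]
  refine Finset.sum_le_sum fun a ha => ?_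
  have := cx_sq_le hw (K := K1) (hw.bm_cx K2 (hX a ha)) z
  rwa [cx_cx hw hK (hX a ha)] at this

theorem ex_s2_mono (hw : Wt (g1 κ) w) (hK : K1 ⊆ K2) (s : Finset A) {X : A → (κ → ℝ) → ℝ}
    (hX : ∀ a ∈ s, BM (X a)) :
    ex (g1 κ) w (fun z => ∑ a ∈ s, cx (g1 κ) K1 w (X a) z ^ 2) ≤
      ex (g1 κ) w (fun z => ∑ a ∈ s, cx (g1 κ) K2 w (X a) z ^ 2) := by
  rw [← ex_cx' hw (K := K1) (bm_s2 hw s hX K2)]
  exact hw.ex_mono (bm_s2 hw s hX K1) (hw.bm_cx K1 (bm_s2 hw s hX K2))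
    fun z => s2_le hw hK s hX z

theorem ex_s4_mono (hw : Wt (g1 κ) w) (hK : K1 ⊆ K2) (s : Finset A) {X : A → (κ → ℝ) → ℝ}
    (hX : ∀ a ∈ s, BM (X a)) :
    ex (g1 κ) w (fun z => (∑ a ∈ s, cx (g1 κ) K1 w (X a) z ^ 2) ^ 2) ≤
      ex (g1 κ) w (fun z => (∑ a ∈ s, cx (g1 κ) K2 w (X a) z ^ 2) ^ 2) := by
  have hb2 := bm_s2 hw s hX K2
  rw [← ex_cx' hw (K := K1) (bsq' hb2)]
  refine hw.ex_mono (bsq' (bm_s2 hw s hX K1)) (hw.bm_cx K1 (bsq' hb2)) fun z => ?_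
  refine le_trans ?_ (cx_sq_le hw (K := K1) hb2 z)
  exact pow_le_pow_left₀ (Finset.sum_nonneg fun _ _ => sq_nonneg _) (s2_le hw hK s hX z) 2

lemma s2_sub {s s' : Finset A} (hs : s ⊆ s') (v : A → ℝ) :
    ∑ a ∈ s, v a ^ 2 ≤ ∑ a ∈ s', v a ^ 2 :=
  Finset.sum_le_sum_of_subset_of_nonneg hs fun _ _ _ => sq_nonneg _

theorem ex_s2_sub (hw : Wt (g1 κ) w) {s s' : Finset A} (hs : s ⊆ s') {X : A → (κ → ℝ) → ℝ}
    (hX : ∀ a, BM (X a)) (K : Finset κ) :
    ex (g1 κ) w (fun z => ∑ a ∈ s, cx (g1 κ) K w (X a) z ^ 2) ≤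
      ex (g1 κ) w (fun z => ∑ a ∈ s', cx (g1 κ) K w (X a) z ^ 2) :=
  hw.ex_mono (bm_s2 hw s (fun a _ => hX a) K) (bm_s2 hw s' (fun a _ => hX a) K)
    fun _ => s2_sub hs _

theorem ex_s4_sub (hw : Wt (g1 κ) w) {s s' : Finset A} (hs : s ⊆ s') {X : A → (κ → ℝ) → ℝ}
    (hX : ∀ a, BM (X a)) (K : Finset κ) :
    ex (g1 κ) w (fun z => (∑ a ∈ s, cx (g1 κ) K w (X a) z ^ 2) ^ 2) ≤
      ex (g1 κ) w (fun z => (∑ a ∈ s', cx (g1 κ) K w (X a) z ^ 2) ^ 2) :=
  hw.ex_mono (bsq' (bm_s2 hw s (fun a _ => hX a) K)) (bsq' (bm_s2 hw s' (fun a _ => hX a) K))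
    fun _ => pow_le_pow_left₀ (Finset.sum_nonneg fun _ _ => sq_nonneg _) (s2_sub hs _) 2

end jensen

/-- the two functionals -/
lemma s2_hyp {A : Type} [Fintype A] (s : Finset A) (k : ℕ) :
    Measurable (fun v : A → ℝ => (∑ a ∈ s, v a ^ 2) ^ k) ∧
    ∀ C, ∃ C', ∀ v : A → ℝ, (∀ a, |v a| ≤ C) → |(∑ a ∈ s, v a ^ 2) ^ k| ≤ C' := by
  constructor
  · fun_prop
  · intro C
    refine ⟨(∑ _a ∈ s, C ^ 2) ^ k, fun v hv => ?_⟩
    have h0 : 0 ≤ ∑ a ∈ s, v a ^ 2 := Finset.sum_nonneg fun _ _ => sq_nonneg _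
    rw [abs_of_nonneg (pow_nonneg h0 k)]
    refine pow_le_pow_left₀ h0 (Finset.sum_le_sum fun a _ => ?_) k
    rw [← sq_abs]
    exact pow_le_pow_left₀ (abs_nonneg _) (hv a) 2

/-- **MONOTONICITY**, second moments -/
theorem ex_mono2 (h : Ls p c K q r) (h' : Ls p' c' K' q' r') (hq : ∀ e, q e ≤ q' e)
    (ht : ∀ e, q e + r e = q' e + r' e) {W : (ι → ℝ) → ℝ} (hW : EG W) (hpos : ∀ y, 0 < W y)
    {A : Type} [Fintype A] {s s' : Finset A} (hs : s ⊆ s') {φ : A → (ι → ℝ) → ℝ}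
    (hφ : ∀ a, BM (φ a)) :
    ex (g1 κ) (fun z => W (lf p c z)) (fun z => ∑ a ∈ s,
        cx (g1 κ) K (fun z => W (lf p c z)) (fun z => φ a (lf p c z)) z ^ 2) ≤
      ex (g1 κ') (fun z => W (lf p' c' z)) (fun z => ∑ a ∈ s',
        cx (g1 κ') K' (fun z => W (lf p' c' z)) (fun z => φ a (lf p' c' z)) z ^ 2) := by
  obtain ⟨m1, m2⟩ := s2_hyp s 1
  obtain ⟨m1', m2'⟩ := s2_hyp s' 1
  simp only [pow_one] at m1 m2 m1' m2'
  have hb : ∀ e, 0 ≤ q' e - q e := fun e => sub_nonneg.2 (hq e)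
  have a1 : Ls (p3 ι) (c3 q (fun e => q' e - q e) r') (K3a ι) q r := by
    have := ls3a h.q0 hb h'.r0
    have e1 : (fun e => q' e - q e + r' e) = r := funext fun e => by linarith [ht e]
    rwa [e1] at this
  have a2 : Ls (p3 ι) (c3 q (fun e => q' e - q e) r') (K3b ι) q' r' := by
    have := ls3b h.q0 hb h'.r0
    have e1 : (fun e => q e + (q' e - q e)) = q' := funext fun e => by ring
    rwa [e1] at this
  rw [ex_congr h a1 hW hpos hφ m1 m2, ← ex_congr a2 h' hW hpos hφ m1' m2']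
  exact (ex_s2_mono (wt_lv hW hpos _ _) (K3_sub ι) s fun a _ => bm_lv (hφ a) _ _).trans
    (ex_s2_sub (wt_lv hW hpos _ _) hs (fun a => bm_lv (hφ a) _ _) _)

/-- **MONOTONICITY**, fourth moments -/
theorem ex_mono4 (h : Ls p c K q r) (h' : Ls p' c' K' q' r') (hq : ∀ e, q e ≤ q' e)
    (ht : ∀ e, q e + r e = q' e + r' e) {W : (ι → ℝ) → ℝ} (hW : EG W) (hpos : ∀ y, 0 < W y)
    {A : Type} [Fintype A] {s s' : Finset A} (hs : s ⊆ s') {φ : A → (ι → ℝ) → ℝ}
    (hφ : ∀ a, BM (φ a)) :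
    ex (g1 κ) (fun z => W (lf p c z)) (fun z => (∑ a ∈ s,
        cx (g1 κ) K (fun z => W (lf p c z)) (fun z => φ a (lf p c z)) z ^ 2) ^ 2) ≤
      ex (g1 κ') (fun z => W (lf p' c' z)) (fun z => (∑ a ∈ s',
        cx (g1 κ') K' (fun z => W (lf p' c' z)) (fun z => φ a (lf p' c' z)) z ^ 2) ^ 2) := by
  obtain ⟨m1, m2⟩ := s2_hyp s 2
  obtain ⟨m1', m2'⟩ := s2_hyp s' 2
  have hb : ∀ e, 0 ≤ q' e - q e := fun e => sub_nonneg.2 (hq e)
  have a1 : Ls (p3 ι) (c3 q (fun e => q' e - q e) r') (K3a ι) q r := by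
    have := ls3a h.q0 hb h'.r0
    have e1 : (fun e => q' e - q e + r' e) = r := funext fun e => by linarith [ht e]
    rwa [e1] at this
  have a2 : Ls (p3 ι) (c3 q (fun e => q' e - q e) r') (K3b ι) q' r' := by
    have := ls3b h.q0 hb h'.r0
    have e1 : (fun e => q e + (q' e - q e)) = q' := funext fun e => by ring
    rwa [e1] at this
  rw [ex_congr h a1 hW hpos hφ m1 m2, ← ex_congr a2 h' hW hpos hφ m1' m2']
  exact (ex_s4_mono (wt_lv hW hpos _ _) (K3_sub ι) s fun a _ => bm_lv (hφ a) _ _).trans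
    (ex_s4_sub (wt_lv hW hpos _ _) hs (fun a => bm_lv (hφ a) _ _) _)

end gen

/-! ### Gibbs systems with levels -/

section gibbs

variable {κ κ' ι : Type} [Fintype κ] [DecidableEq κ] [Fintype κ'] [DecidableEq κ']
  [Fintype ι] [DecidableEq ι]
variable {Ω : Type} [MeasurableSpace Ω] {μ : Measure Ω} {M0 x : ℝ} {S : ι → Ω → ℝ}
variable {S1 : κ → Ω → ℝ} {p : κ → ι} {c : κ → ℝ} {K : Finset κ}
variable {S2 : κ' → Ω → ℝ} {p' : κ' → ι} {c' : κ' → ℝ} {K' : Finset κ'}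
variable {q r q' r' : ι → ℝ}

lemma cg_lv (h : Lvl p c S S1) (K : Finset κ) (x : ℝ) (f : Ω → ℝ) (z : κ → ℝ) :
    cg μ S1 x K f z = cx (g1 κ) K (fun z => Zxm μ 1 S x (lf p c z))
      (fun z => avm μ 1 S f (lf p c z)) z := by
  unfold cg
  have e1 : (fun z : κ → ℝ => Zxm μ 1 S x (lf p c z)) = Zxm μ 1 S1 x := by
    funext z
    rw [Zx_lv h]
  have e2 : (fun z : κ → ℝ => avm μ 1 S f (lf p c z)) = avm μ 1 S1 f := by
    funext z
    rw [av_lv h]
  rw [e1, e2]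

lemma eg_lv (h : Lvl p c S S1) (x : ℝ) (Ψ : (κ → ℝ) → ℝ) :
    eg μ S1 x Ψ = ex (g1 κ) (fun z => Zxm μ 1 S x (lf p c z)) Ψ := by
  unfold eg
  have e1 : (fun z : κ → ℝ => Zxm μ 1 S x (lf p c z)) = Zxm μ 1 S1 x := by
    funext z
    rw [Zx_lv h]
  rw [e1]

lemma eg_Zx (hG : GM μ S M0) (k x : ℝ) : EG (Zxm μ k S x) := (hG.lip k).exp_eg x

variable {A : Type} [Fintype A] {f : A → Ω → ℝ}

/-- **CONGRUENCE** for Gibbs systems with levels -/
theorem eg_congr (hG : GM μ S M0) (h1 : Lvl p c S S1) (h2 : Lvl p' c' S S2) (h : Ls p c K q r)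
    (h' : Ls p' c' K' q r) (x : ℝ) (hf : ∀ a, Bm (f a)) {Φ : (A → ℝ) → ℝ} (hΦ : Measurable Φ)
    (hΦC : ∀ C, ∃ C', ∀ v : A → ℝ, (∀ a, |v a| ≤ C) → |Φ v| ≤ C') :
    eg μ S1 x (fun z => Φ fun a => cg μ S1 x K (f a) z) =
      eg μ S2 x (fun z => Φ fun a => cg μ S2 x K' (f a) z) := by
  rw [eg_lv h1, eg_lv h2]
  simp only [cg_lv h1, cg_lv h2]
  exact ex_congr h h' (eg_Zx hG 1 x) (Zxm_pos x) (fun a => H347.bm hG 1 (hf a)) hΦ hΦC

/-- **MONOTONICITY** for Gibbs systems with levels, second moments -/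
theorem eg_mono2 (hG : GM μ S M0) (h1 : Lvl p c S S1) (h2 : Lvl p' c' S S2) (h : Ls p c K q r)
    (h' : Ls p' c' K' q' r') (hq : ∀ e, q e ≤ q' e) (ht : ∀ e, q e + r e = q' e + r' e) (x : ℝ)
    {s s' : Finset A} (hs : s ⊆ s') (hf : ∀ a, Bm (f a)) :
    eg μ S1 x (fun z => ∑ a ∈ s, cg μ S1 x K (f a) z ^ 2) ≤
      eg μ S2 x (fun z => ∑ a ∈ s', cg μ S2 x K' (f a) z ^ 2) := by
  rw [eg_lv h1, eg_lv h2]
  simp only [cg_lv h1, cg_lv h2]
  exact ex_mono2 h h' hq ht (eg_Zx hG 1 x) (Zxm_pos x) hs (fun a => H347.bm hG 1 (hf a))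

/-- **MONOTONICITY** for Gibbs systems with levels, fourth moments -/
theorem eg_mono4 (hG : GM μ S M0) (h1 : Lvl p c S S1) (h2 : Lvl p' c' S S2) (h : Ls p c K q r)
    (h' : Ls p' c' K' q' r') (hq : ∀ e, q e ≤ q' e) (ht : ∀ e, q e + r e = q' e + r' e) (x : ℝ)
    {s s' : Finset A} (hs : s ⊆ s') (hf : ∀ a, Bm (f a)) :
    eg μ S1 x (fun z => (∑ a ∈ s, cg μ S1 x K (f a) z ^ 2) ^ 2) ≤
      eg μ S2 x (fun z => (∑ a ∈ s', cg μ S2 x K' (f a) z ^ 2) ^ 2) := by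
  rw [eg_lv h1, eg_lv h2]
  simp only [cg_lv h1, cg_lv h2]
  exact ex_mono4 h h' hq ht (eg_Zx hG 1 x) (Zxm_pos x) hs (fun a => H347.bm hG 1 (hf a))

end gibbs

end Vale.Agent.P146.H9
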