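import Vale.Agent.P146.H643.KLow

/-!
# P146: second moments of the spins against the weighted first moments, with the amplitude
inside the rank one number

For a fixed `z` (frozen set `K`): `CC = ∑_{i,j ∈ S} (cx ⟨σ_iσ_j⟩)²`, `m_j = cx ⟨σ_j⟩`,
`M_i = cx ⟨a σ_i⟩`, `RKa = ∑_{i,j ∈ S} (cx ⟨a σ_iσ_j⟩ - M_i m_j)²`.

* `pair_ge` : `c² CC ≤ ∑ (cx ⟨h σ_iσ_j⟩)²` for `h ≥ c ≥ 0`;
* `cc_le_a` : `CC ≤ (1 + θ)² / (1 - η)⁴ (∑ M²)² + 2 (1 + 1/θ) / (1 - η)² RKa`, pointwise in `z`;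
* `rr_le_a` : the same for `Law.rr`.
-/

open MeasureTheory ProbabilityTheory Set

namespace Vale.Agent.P146.H9

open Vale.Agent.P157.Lv hiding Dep
open Vale.Agent.P146.H196 Vale.Agent.P146.H646 Vale.Agent.P146.H475 Vale.Agent.P146.H347
  Vale.Agent.P146.H816 Vale.Agent.P146.H325 Vale.Agent.P146.H762

set_option linter.unusedSectionVars false

/-! ### numbers -/

/-- the quadratic inequality -/
lemma quad_a {X M R e θ : ℝ} (he : e < 1) (hθ : 0 < θ)
    (h : (1 - e) ^ 2 * X ^ 2 ≤ (1 + θ) * (M * X) + (1 + 1 / θ) * R) :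
    X ^ 2 ≤ (1 + θ) ^ 2 / (1 - e) ^ 4 * M ^ 2 + 2 * (1 + 1 / θ) / (1 - e) ^ 2 * R := by
  have h1 : 0 < 1 - e := by linarith
  have h2 : (1 + θ) * (M * X) ≤
      ((1 + θ) ^ 2 / (1 - e) ^ 2 * M ^ 2 + (1 - e) ^ 2 * X ^ 2) / 2 := by
    have h3 : 0 ≤ ((1 + θ) / (1 - e) * M - (1 - e) * X) ^ 2 := sq_nonneg _
    have h4 : ((1 + θ) / (1 - e) * M - (1 - e) * X) ^ 2 =
        (1 + θ) ^ 2 / (1 - e) ^ 2 * M ^ 2 - 2 * ((1 + θ) * (M * X)) + (1 - e) ^ 2 * X ^ 2 := by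
      field_simp
      ring
    linarith
  have h5 : (1 - e) ^ 2 * X ^ 2 ≤
      (1 + θ) ^ 2 / (1 - e) ^ 2 * M ^ 2 + 2 * ((1 + 1 / θ) * R) := by linarith
  have h6 : 0 < (1 - e) ^ 2 := by positivity
  calc X ^ 2 = ((1 - e) ^ 2 * X ^ 2) / (1 - e) ^ 2 := by field_simp
    _ ≤ ((1 + θ) ^ 2 / (1 - e) ^ 2 * M ^ 2 + 2 * ((1 + 1 / θ) * R)) / (1 - e) ^ 2 :=
      div_le_div_of_nonneg_right h5 h6.le
    _ = _ := by
      field_simp

/-! ### the root law -/

section root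

variable {ι : Type} [Fintype ι] [DecidableEq ι] {Ω : Type} [MeasurableSpace Ω] {X : Type}
  [Fintype X] [DecidableEq X] [MeasurableSpace X] [DiscreteMeasurableSpace X]
  {μ : Measure Ω} {S : ι → Ω → ℝ} {M0 : ℝ} {w : (ι → ℝ) → ℝ} {cf : Ω → X}
  {K : Finset ι} {h : Ω → ℝ}

/-- densities with respect to the root law, from below -/
lemma pz_ge (hG : GM μ S M0) (hw : Wt (g1 ι) w) (k : ℝ) (hc : Measurable cf) (hh : Bm h)
    {C : ℝ} (hC : ∀ ω, C ≤ h ω) (z : ι → ℝ) (σ : X) :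
    C * rt μ k S w cf K z σ ≤ pz μ k S w cf K h z σ := by
  have b1 := bm hG k (bm_ind hc hh σ)
  have b2 := bm hG k (bm_ind hc (Bm.const 1) σ)
  have h1 : ∀ u, C * avm μ k S (ind cf (fun _ => 1) σ) u ≤ avm μ k S (ind cf h σ) u := by
    intro u
    rw [← H196.av_mul]
    refine hG.av_mono k ((bm_ind hc (Bm.const 1) σ).const_mul C) (bm_ind hc hh σ)
      (fun ω => ?_) u
    unfold ind
    split_ifs
    · have := hC ω
      linarith
    · simp
  unfold rt pz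
  rw [← H646.cx_const_mul hw]
  exact H646.cx_mono hw ((BM.const C).mul b2) b1 h1 z

end root

section sk

variable {n : ℕ} {LB LF : Type} [Fintype LB] [DecidableEq LB] [Fintype LF] [DecidableEq LF]
variable (b : ℝ) (cB : LB → ℝ) (cF : LF → ℝ) (s : ℝ) {η lam : ℝ}
variable (hl : 0 < lam) (hη : 0 ≤ η) (c x : ℝ) (K : Finset (Co n LB LF)) (S : Finset (Fin n))

/-- `∑_{i,j ∈ S} (E[⟨a σ_iσ_j⟩ | K] - E[⟨a σ_i⟩ | K] E[⟨σ_j⟩ | K])²` -/
noncomputable def rkna (b : ℝ) (cB : LB → ℝ) (cF : LF → ℝ) (s η lam c x : ℝ)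
    (K : Finset (Co n LB LF)) (S : Finset (Fin n)) (z : Co n LB LF → ℝ) : ℝ :=
  ∑ i ∈ S, ∑ j ∈ S, (cm b cB cF s η lam c x K (fun w => al η w.1 * sp w.2 i * sp w.2 j) z -
    cm b cB cF s η lam c x K (fun w => al η w.1 * sp w.2 i) z *
    cm b cB cF s η lam c x K (fun w => sp w.2 j) z) ^ 2

lemma rkna_nonneg (z : Co n LB LF → ℝ) : 0 ≤ rkna b cB cF s η lam c x K S z :=
  Finset.sum_nonneg fun _ _ => Finset.sum_nonneg fun _ _ => sq_nonneg _

include hl hη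

/-- **the pairs with a factor from below** -/
theorem pair_ge {h : ℝ × Xs n → ℝ} (hh : Bm h) {C : ℝ} (hC : ∀ ω, C ≤ h ω) (hC0 : 0 ≤ C)
    (z : Co n LB LF → ℝ) :
    C ^ 2 * cc b cB cF s η lam c x K S z ≤ ∑ i ∈ S, ∑ j ∈ S,
      cm b cB cF s η lam c x K (fun w => h w * (sp w.2 i * sp w.2 j)) z ^ 2 := by
  have := dmx n
  have hG := gmA (n := n) b cB cF s hl hη c
  have hw := wtA (n := n) b cB cF s hl hη c x
  have e : ∀ i j, cm b cB cF s η lam c x K (fun w => h w * (sp w.2 i * sp w.2 j)) z =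
      ∑ σ, pz (muA (Xs n) lam η c) 1 (Sm b cB cF s η)
        (Zxm (muA (Xs n) lam η c) 1 (Sm b cB cF s η) x) Prod.snd K h z σ *
        (sp σ i * sp σ j) := fun i j =>
    cx_fin hG hw 1 measurable_snd hh (fun σ => sp σ i * sp σ j) z
  have e0 : cc b cB cF s η lam c x K S z = mo S 2 (rA b cB cF s η lam c x K z) :=
    mo_two_cx b cB cF s hl hη c x K S z
  simp only [e]
  rw [mo_two, e0]
  unfold mo E2
  rw [Finset.mul_sum]
  refine Finset.sum_le_sum fun σ _ => ?_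
  rw [Finset.mul_sum]
  refine Finset.sum_le_sum fun σ' _ => ?_
  have k1 : ∀ τ, C * rA b cB cF s η lam c x K z τ ≤
      pz (muA (Xs n) lam η c) 1 (Sm b cB cF s η)
        (Zxm (muA (Xs n) lam η c) 1 (Sm b cB cF s η) x) Prod.snd K h z τ := fun τ =>
    pz_ge hG hw 1 measurable_snd hh hC z τ
  have k0 : ∀ τ, 0 ≤ rA b cB cF s η lam c x K z τ := fun τ =>
    rA_nonneg b cB cF s hl hη c x K z τ
  have k2 := mul_le_mul (k1 σ) (k1 σ') (mul_nonneg hC0 (k0 σ'))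
    ((mul_nonneg hC0 (k0 σ)).trans (k1 σ))
  have k3 := mul_le_mul_of_nonneg_right k2 (sq_nonneg (ov S σ σ'))
  refine le_trans (le_of_eq ?_) k3
  ring

/-- `∑ m² ≤ √CC` -/
lemma mm_le_sqrt (z : Co n LB LF → ℝ) :
    mm b cB cF s η lam c x K S z ≤ √(cc b cB cF s η lam c x K S z) := by
  have h1 := amp_sq_le b cB cF s hl hη c x K S (h := fun _ => (1 : ℝ)) (C := 1)
    (Bm.const 1) (fun w => by simp) zero_le_one z
  have e0 : mo S 2 (rA b cB cF s η lam c x K z) = cc b cB cF s η lam c x K S z :=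
    (mo_two_cx b cB cF s hl hη c x K S z).symm
  rw [e0] at h1
  simp only [one_mul, one_pow] at h1
  exact h1

/-- **`CC` against `(∑ M²)²`, pointwise** -/
theorem cc_le_a (hη1 : η < 1) {θ : ℝ} (hθ : 0 < θ) (z : Co n LB LF → ℝ) :
    cc b cB cF s η lam c x K S z ≤
      (1 + θ) ^ 2 / (1 - η) ^ 4 * ma b cB cF s η lam c x K S z ^ 2 +
        2 * (1 + 1 / θ) / (1 - η) ^ 2 * rkna b cB cF s η lam c x K S z := by
  have h0 : 0 ≤ cc b cB cF s η lam c x K S z := cc_nonneg b cB cF s c x K S z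
  have h1 := pair_ge b cB cF s hl hη c x K S (h := fun w => al η w.1) (C := 1 - η)
    (bm_of_al (n := n) hη) (fun w => (al_mem hη w.1).1) (by linarith) z
  have h2 : ∑ i ∈ S, ∑ j ∈ S,
      cm b cB cF s η lam c x K (fun w => al η w.1 * (sp w.2 i * sp w.2 j)) z ^ 2 ≤
      (1 + θ) * (ma b cB cF s η lam c x K S z * mm b cB cF s η lam c x K S z) +
        (1 + 1 / θ) * rkna b cB cF s η lam c x K S z := by
    unfold ma mm rkna
    rw [Finset.sum_mul_sum, Finset.mul_sum, Finset.mul_sum, ← Finset.sum_add_distrib]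
    refine Finset.sum_le_sum fun i _ => ?_
    rw [Finset.mul_sum, Finset.mul_sum, ← Finset.sum_add_distrib]
    refine Finset.sum_le_sum fun j _ => ?_
    have h := H762.sq_up
      (a := cm b cB cF s η lam c x K (fun w => al η w.1 * sp w.2 i * sp w.2 j) z)
      (b := cm b cB cF s η lam c x K (fun w => al η w.1 * sp w.2 i) z *
        cm b cB cF s η lam c x K (fun w => sp w.2 j) z) hθ
    rw [mul_pow] at h
    have e : (fun w : ℝ × Xs n => al η w.1 * (sp w.2 i * sp w.2 j)) =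
        fun w => al η w.1 * sp w.2 i * sp w.2 j := by funext w; ring
    rw [e]
    exact h
  have h3 := mm_le_sqrt b cB cF s hl hη c x K S z
  have h4 : 0 ≤ ma b cB cF s η lam c x K S z := ma_nonneg b cB cF s c x K S z
  have h5 := quad_a (X := √(cc b cB cF s η lam c x K S z))
    (M := ma b cB cF s η lam c x K S z) (R := rkna b cB cF s η lam c x K S z) hη1 hθ (by
      rw [Real.sq_sqrt h0]
      refine h1.trans (h2.trans ?_)
      have := mul_le_mul_of_nonneg_left (mul_le_mul_of_nonneg_left h3 h4)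
        (by positivity : (0 : ℝ) ≤ 1 + θ)
      linarith)
  rwa [Real.sq_sqrt h0] at h5

lemma bm_rkna : BM (rkna b cB cF s η lam c x K S) :=
  BM.sum S fun i _ => BM.sum S fun j _ =>
    H615.bsq ((bm_cm b cB cF s hl hη c x K
      (((bm_of_al (n := n) hη).mul (bm_sp i)).mul (bm_sp j))).sub
      ((bm_cm b cB cF s hl hη c x K ((bm_of_al (n := n) hη).mul (bm_sp i))).mul
        (bm_cm b cB cF s hl hη c x K (bm_sp j))))

/-- **`ex CC` against `ex (∑ M²)²`** -/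
theorem em_cc_le_a (hη1 : η < 1) {θ : ℝ} (hθ : 0 < θ) :
    em b cB cF s η lam c x (cc b cB cF s η lam c x K S) ≤
      (1 + θ) ^ 2 / (1 - η) ^ 4 *
        em b cB cF s η lam c x (fun z => ma b cB cF s η lam c x K S z ^ 2) +
      2 * (1 + 1 / θ) / (1 - η) ^ 2 *
        em b cB cF s η lam c x (rkna b cB cF s η lam c x K S) := by
  have hw := wtA (n := n) b cB cF s hl hη c x
  have b1 := bm_cc b cB cF s hl hη c x K S
  have b2 := H615.bsq (bm_ma b cB cF s hl hη c x K S)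
  have b3 := bm_rkna b cB cF s hl hη c x K S
  rw [← H615.ex_cmul, ← H615.ex_cmul, ← H615.ex_add hw (H615.bcm _ b2) (H615.bcm _ b3)]
  exact H615.ex_mono hw b1 ((H615.bcm _ b2).add (H615.bcm _ b3)) fun z =>
    cc_le_a b cB cF s hl hη c x K S hη1 hθ z

end sk

/-! ### on the names of the laws -/

section law

open Vale.Agent.P146.H418 Vale.Agent.P146.H643

/-- the rank one number with the amplitude -/
noncomputable def rka (L : Law) (S : Finset (Fin L.n)) (t u : ℝ) : ℝ :=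
  (L.ex' t u fun z => ∑ i ∈ S, ∑ j ∈ S,
    (L.cx' S t u (fun w => al L.η w.1 * sp w.2 i * sp w.2 j) z -
    L.cx' S t u (fun w => al L.η w.1 * sp w.2 i) z * L.cx' S t u (fun w => sp w.2 j) z) ^ 2) /
      L.n ^ 2

lemma rka_eq_em (L : Law) (S : Finset (Fin L.n)) (t u : ℝ) :
    rka L S t u = H762.em L.b (cb t) (cf L.vp u) L.s L.η L.lam L.c L.x
      (rkna L.b (cb t) (cf L.vp u) L.s L.η L.lam L.c L.x (Kt L.n S) S) / (L.n : ℝ) ^ 2 := rfl

/-- **the overlap of two copies from above**, without an error of the a-priori size -/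
theorem rr_le_a {L : Law} {S : Finset (Fin L.n)} {t u θ : ℝ} (hl : 0 < L.lam) (hη : 0 ≤ L.η)
    (hη1 : L.η < 1) (hn : 0 < L.n) (hθ : 0 < θ) :
    L.rr S t u ≤ (1 + θ) ^ 2 / (1 - L.η) ^ 4 * L.qq S t u +
      2 * (1 + 1 / θ) / (1 - L.η) ^ 2 * rka L S t u := by
  have hn' : (0 : ℝ) < L.n := by exact_mod_cast hn
  have h := em_cc_le_a L.b (cb t) (cf L.vp u) L.s hl hη L.c L.x (Kt L.n S) S hη1 hθ
  have h2 : (0 : ℝ) < (L.n : ℝ) ^ 2 := by positivity
  have h3 := div_le_div_of_nonneg_right h h2.le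
  rw [← CC_eq_em] at h3
  have h4 : (0 : ℝ) ≤ (S.card : ℝ) / (L.n : ℝ) ^ 2 := by positivity
  have h5 := CC_eq_rr (S := S) (t := t) (u := u) hl hη hn
  rw [qq_eq_em, rka_eq_em]
  rw [add_div, mul_div_assoc, mul_div_assoc] at h3
  linarith

end law

end Vale.Agent.P146.H9
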