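import Vale.Agent.P146.H9.KLd


/-!
# P146: the entropy of the restricted tilted law, and its stability

`KLt x F t` is the relative entropy of the position at the time `t` under the law tilted by
`exp (x F)`; it equals `(x²/2) ∫_0^t Φ`.  If `|F - G| ≤ ε` then the entropies of `F` and `G` differ
by at most `2xε + (e^(2xε) - 1) (KLt x F t + 1)`.
-/

open MeasureTheory ProbabilityTheory Filter Topology

namespace Vale.Agent.P146.H9

open Vale.Agent.P157.Lv Vale.Agent.P146.H425

set_option linter.unusedSectionVars false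

variable {κ : Type} [Fintype κ] {F G : (κ → ℝ) → ℝ} {D DG : κ → (κ → ℝ) → ℝ} {B L x t ε : ℝ}

/-! ### restriction to the time `t` -/

/-- the value function at the time `t` as a function of a standard vector -/
noncomputable def Ut (x : ℝ) (F : (κ → ℝ) → ℝ) (t : ℝ) (z : κ → ℝ) : ℝ :=
  W x (√(1 - t)) F (√t • z)

/-- its gradient -/
noncomputable def DUt (x : ℝ) (F : (κ → ℝ) → ℝ) (D : κ → (κ → ℝ) → ℝ) (t : ℝ) (e : κ)
    (z : κ → ℝ) : ℝ := √t * DW x (√(1 - t)) F D e (√t • z)

/-- the entropy of the restriction to the time `t` -/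
noncomputable def KLt (x : ℝ) (F : (κ → ℝ) → ℝ) (t : ℝ) : ℝ := KL (Ut x F t) x

lemma W_scale (x s a : ℝ) (X : (κ → ℝ) → ℝ) (y : κ → ℝ) :
    W x s (fun z => X (a • z)) y = W x (a * s) X (a • y) := by
  unfold W
  simp only [smul_add, smul_smul]

lemma DW_scale (x s a : ℝ) (X : (κ → ℝ) → ℝ) (DX : κ → (κ → ℝ) → ℝ) (e : κ) (y : κ → ℝ) :
    DW x s (fun z => X (a • z)) (fun e z => a * DX e (a • z)) e y =
      a * DW x (a * s) X DX e (a • y) := by
  unfold DW
  simp only [smul_add, smul_smul]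
  rw [mul_div_assoc', ← integral_const_mul]
  congr 1
  refine integral_congr_ae (Eventually.of_forall fun z => ?_)
  simp only
  ring

theorem c11_Ut (h : C11 F D B L) (hx : 0 < x) (t : ℝ) :
    C11 (Ut x F t) (DUt x F D t) (|√t| * B)
      (√t ^ 2 * (L + 2 * x * (Fintype.card κ * B) ^ 2)) := by
  have h1 := (h.W' hx (√(1 - t))).shift 0 (√t)
  simp only [zero_add] at h1
  exact h1

/-- the semigroup property of the value function -/
lemma W_Ut (h : C11 F D B L) (hx : 0 < x) (ht : 0 ≤ t) (ht1 : t ≤ 1) {s : ℝ}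
    (hs1 : s ≤ 1) (z : κ → ℝ) :
    W x (√(1 - s)) (Ut x F t) (√s • z) = W x (√(1 - t * s)) F (√(t * s) • z) := by
  have e0 : Ut x F t = fun z => W x (√(1 - t)) F (√t • z) := rfl
  rw [e0, W_scale, W_W h.lip h.B0 hx (c := √(1 - t * s)), smul_smul, Real.sqrt_mul ht]
  have h1 : 0 ≤ 1 - t * s := by nlinarith
  rw [mul_pow, Real.sq_sqrt ht, Real.sq_sqrt (by linarith), Real.sq_sqrt (by linarith),
    Real.sq_sqrt h1]
  ring

lemma DW_Ut (h : C11 F D B L) (hx : 0 < x) (ht : 0 ≤ t) (ht1 : t ≤ 1) {s : ℝ}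
    (hs1 : s ≤ 1) (e : κ) (z : κ → ℝ) :
    DW x (√(1 - s)) (Ut x F t) (DUt x F D t) e (√s • z) =
      √t * DW x (√(1 - t * s)) F D e (√(t * s) • z) := by
  have e0 : Ut x F t = fun z => W x (√(1 - t)) F (√t • z) := rfl
  have e1 : DUt x F D t = fun e z => √t * DW x (√(1 - t)) F D e (√t • z) := rfl
  have h1 : 0 ≤ 1 - t * s := by nlinarith
  have hb : (√t * √(1 - s)) ^ 2 + √(1 - t) ^ 2 = √(1 - t * s) ^ 2 := by
    rw [mul_pow, Real.sq_sqrt ht, Real.sq_sqrt (by linarith), Real.sq_sqrt (by linarith),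
      Real.sq_sqrt h1]
    ring
  have e3 : √t * √s = √(t * s) := (Real.sqrt_mul ht s).symm
  rw [e0, e1, DW_scale, smul_smul, e3]
  congr 1
  rw [DW_step h hx hb e]
  rfl

/-- `Φ` of the value function -/
theorem Phi_Ut (h : C11 F D B L) (hx : 0 < x) (ht : 0 ≤ t) (ht1 : t ≤ 1) {s : ℝ} (hs : 0 ≤ s)
    (hs1 : s ≤ 1) : Phi x (Ut x F t) (DUt x F D t) s = t * Phi x F D (t * s) := by
  unfold Phi Nm G2
  have hA : ∫ z, Real.exp (x * Ut x F t z) ∂(gI κ) = ∫ z, Real.exp (x * F z) ∂(gI κ) := by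
    have := Nm_one h hx (a := √t) (b := √(1 - t))
      (by rw [Real.sq_sqrt ht, Real.sq_sqrt (by linarith)]; ring)
    exact this
  rw [hA, mul_div_assoc', ← integral_const_mul]
  congr 1
  refine integral_congr_ae (Eventually.of_forall fun z => ?_)
  simp only
  rw [W_Ut h hx ht ht1 hs1]
  simp only [DW_Ut h hx ht ht1 hs1]
  simp only [mul_pow, Real.sq_sqrt ht]
  rw [← Finset.mul_sum]
  ring

/-- **The entropy of the restriction is the time integral up to `t`.** -/
theorem KLt_eq (h : C11 F D B L) (hx : 0 < x) (ht : 0 ≤ t) (ht1 : t ≤ 1) :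
    KLt x F t = x ^ 2 / 2 * ∫ s in (0 : ℝ)..t, Phi x F D s := by
  unfold KLt
  rw [KL_eq_int (c11_Ut h hx t) hx]
  congr 1
  have e1 : ∫ s in (0 : ℝ)..1, Phi x (Ut x F t) (DUt x F D t) s =
      ∫ s in (0 : ℝ)..1, t * Phi x F D (t * s) := by
    refine intervalIntegral.integral_congr fun s hs => ?_
    rw [Set.uIcc_of_le zero_le_one] at hs
    exact Phi_Ut h hx ht ht1 hs.1 hs.2
  rw [e1, intervalIntegral.integral_const_mul, ← smul_eq_mul,
    intervalIntegral.smul_integral_comp_mul_left]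
  simp

/-! ### stability -/

/-- the entropy as an integral -/
lemma KL_int (h : Lip F) (x : ℝ) : KL F x =
    ∫ z, Real.exp (x * F z - Real.log (∫ z, Real.exp (x * F z) ∂(gI κ))) *
      (x * F z - Real.log (∫ z, Real.exp (x * F z) ∂(gI κ))) ∂(gI κ) := by
  obtain ⟨A, hA⟩ : ∃ A, A = ∫ z, Real.exp (x * F z) ∂(gI κ) := ⟨_, rfl⟩
  have hpos : 0 < A := by rw [hA]; exact integral_exp_pos (h.exp_eg x).integrable
  rw [← hA]
  have e1 : ∀ z, Real.exp (x * F z - Real.log A) * (x * F z - Real.log A) =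
      (x / A) * (Real.exp (x * F z) * F z) - (Real.log A / A) * Real.exp (x * F z) := by
    intro z
    rw [Real.exp_sub, Real.exp_log hpos]
    ring
  simp only [e1]
  rw [integral_sub (((h.exp_eg x).mul h.eg).integrable.const_mul _)
    ((h.exp_eg x).integrable.const_mul _), integral_const_mul, integral_const_mul, ← hA]
  unfold KL
  rw [← hA]
  field_simp

lemma neg_exp_mul_le (l : ℝ) : |l| * Real.exp l ≤ l * Real.exp l + 1 := by
  rcases le_total 0 l with h | h
  · rw [abs_of_nonneg h]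
    linarith
  · rw [abs_of_nonpos h]
    have h1 := Real.add_one_le_exp (-l - 1)
    have h2 : (-l) * Real.exp l ≤ Real.exp (-1) := by
      have h3 : -l ≤ Real.exp (-l - 1) := by linarith
      calc (-l) * Real.exp l ≤ Real.exp (-l - 1) * Real.exp l :=
            mul_le_mul_of_nonneg_right h3 (Real.exp_pos _).le
        _ = Real.exp (-1) := by rw [← Real.exp_add]; congr 1; ring
    have h4 : Real.exp (-1) ≤ 1 / 2 := by
      have h5 : (2 : ℝ) ≤ Real.exp 1 := by linarith [Real.add_one_le_exp (1 : ℝ)]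
      rw [Real.exp_neg, inv_le_comm₀ (Real.exp_pos _) (by norm_num)]
      linarith
    linarith

/-- **Stability of the relative entropy under uniformly small changes of the function.** -/
theorem KL_stable (hF : Lip F) (hG : Lip G) (hx : 0 ≤ x) (hε : ∀ z, |F z - G z| ≤ ε) :
    |KL G x - KL F x| ≤ 2 * x * ε + (Real.exp (2 * x * ε) - 1) * (KL F x + 1) := by
  have hε0 : 0 ≤ ε := (abs_nonneg _).trans (hε 0)
  obtain ⟨A, hA⟩ : ∃ A, A = ∫ z, Real.exp (x * F z) ∂(gI κ) := ⟨_, rfl⟩
  obtain ⟨A', hA'⟩ : ∃ A', A' = ∫ z, Real.exp (x * G z) ∂(gI κ) := ⟨_, rfl⟩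
  have hpos : 0 < A := by rw [hA]; exact integral_exp_pos (hF.exp_eg x).integrable
  have hpos' : 0 < A' := by rw [hA']; exact integral_exp_pos (hG.exp_eg x).integrable
  have hle : A ≤ Real.exp (x * ε) * A' := by
    rw [hA, hA', ← integral_const_mul]
    refine integral_mono (hF.exp_eg x).integrable ((hG.exp_eg x).integrable.const_mul _)
      fun z => ?_
    simp only
    rw [← Real.exp_add]
    refine Real.exp_le_exp.2 ?_
    have := mul_le_mul_of_nonneg_left ((le_abs_self _).trans (hε z)) hx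
    linarith
  have hle' : A' ≤ Real.exp (x * ε) * A := by
    rw [hA, hA', ← integral_const_mul]
    refine integral_mono (hG.exp_eg x).integrable ((hF.exp_eg x).integrable.const_mul _)
      fun z => ?_
    simp only
    rw [← Real.exp_add]
    refine Real.exp_le_exp.2 ?_
    have := mul_le_mul_of_nonneg_left ((neg_le_abs _).trans (hε z)) hx
    linarith
  have hlog : |Real.log A - Real.log A'| ≤ x * ε := by
    rw [abs_le]
    have h1 := Real.log_le_log hpos hle
    have h2 := Real.log_le_log hpos' hle'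
    rw [Real.log_mul (Real.exp_pos _).ne' hpos'.ne', Real.log_exp] at h1
    rw [Real.log_mul (Real.exp_pos _).ne' hpos.ne', Real.log_exp] at h2
    constructor <;> linarith
  obtain ⟨lF, hlF⟩ : ∃ lF : (κ → ℝ) → ℝ, lF = fun z => x * F z - Real.log A := ⟨_, rfl⟩
  obtain ⟨lG, hlG⟩ : ∃ lG : (κ → ℝ) → ℝ, lG = fun z => x * G z - Real.log A' := ⟨_, rfl⟩
  have hLF : Lip lF := by
    rw [hlF]
    simpa [sub_eq_add_neg] using (hF.const_mul x).add (Lip.const (-Real.log A))
  have hLG : Lip lG := by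
    rw [hlG]
    simpa [sub_eq_add_neg] using (hG.const_mul x).add (Lip.const (-Real.log A'))
  have kF : KL F x = ∫ z, Real.exp (lF z) * lF z ∂(gI κ) := by
    rw [KL_int hF x, ← hA, hlF]
  have kG : KL G x = ∫ z, Real.exp (lG z) * lG z ∂(gI κ) := by
    rw [KL_int hG x, ← hA', hlG]
  obtain ⟨δ, hδ⟩ : ∃ δ, δ = 2 * x * ε := ⟨_, rfl⟩
  have hδ0 : 0 ≤ δ := by rw [hδ]; positivity
  have hd : ∀ z, |lG z - lF z| ≤ δ := by
    intro z
    have h1 : lG z - lF z = -(x * (F z - G z)) + (Real.log A - Real.log A') := by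
      rw [hlF, hlG]
      ring
    rw [h1]
    refine (abs_add_le _ _).trans ?_
    rw [abs_neg, abs_mul, abs_of_nonneg hx]
    have := mul_le_mul_of_nonneg_left (hε z) hx
    linarith
  have eF : EG fun z => Real.exp (lF z) := by simpa using hLF.exp_eg 1
  have eG : EG fun z => Real.exp (lG z) := by simpa using hLG.exp_eg 1
  have i1 : ∫ z, Real.exp (lG z) ∂(gI κ) = 1 := by
    have : ∀ z, Real.exp (lG z) = Real.exp (x * G z) / A' := fun z => by
      rw [hlG, Real.exp_sub, Real.exp_log hpos']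
    simp only [this]
    rw [integral_div, ← hA', div_self hpos'.ne']
  have i2 : ∫ z, |lF z| * Real.exp (lF z) ∂(gI κ) ≤ KL F x + 1 := by
    rw [kF]
    have h1 : ∫ z, |lF z| * Real.exp (lF z) ∂(gI κ) ≤
        ∫ z, (Real.exp (lF z) * lF z + 1) ∂(gI κ) := by
      refine integral_mono (hLF.eg.abs.mul eF).integrable
        ((eF.mul hLF.eg).integrable.add (integrable_const 1)) fun z => ?_
      simp only
      have := neg_exp_mul_le (lF z)
      linarith
    refine h1.trans (le_of_eq ?_)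
    rw [integral_add (eF.mul hLF.eg).integrable (integrable_const 1)]
    simp
  have key : ∀ z, |Real.exp (lG z) * lG z - Real.exp (lF z) * lF z| ≤
      δ * Real.exp (lG z) + (Real.exp δ - 1) * (|lF z| * Real.exp (lF z)) := by
    intro z
    have h1 : Real.exp (lG z) * lG z - Real.exp (lF z) * lF z =
        Real.exp (lG z) * (lG z - lF z) + (Real.exp (lG z) - Real.exp (lF z)) * lF z := by ring
    have h2 : |Real.exp (lG z) - Real.exp (lF z)| ≤ (Real.exp δ - 1) * Real.exp (lF z) := by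
      have h3 : Real.exp (lG z) = Real.exp (lG z - lF z) * Real.exp (lF z) := by
        rw [← Real.exp_add]; congr 1; ring
      have h4 : Real.exp (lG z) - Real.exp (lF z) =
          (Real.exp (lG z - lF z) - 1) * Real.exp (lF z) := by rw [h3]; ring
      rw [h4, abs_mul, abs_of_pos (Real.exp_pos (lF z))]
      refine mul_le_mul_of_nonneg_right ?_ (Real.exp_pos _).le
      have h5 := hd z
      rw [abs_le] at h5
      rw [abs_le]
      constructor
      · have h6 := Real.exp_le_exp.2 h5.1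
        have h7 := Real.add_one_le_exp δ
        have h8 : 1 - (Real.exp δ - 1) ≤ Real.exp (-δ) := by
          have h9 := Real.exp_pos δ
          rw [Real.exp_neg]
          have h10 : (2 - Real.exp δ) * Real.exp δ ≤ 1 := by nlinarith [sq_nonneg (Real.exp δ - 1)]
          have h11 : 2 - Real.exp δ ≤ (Real.exp δ)⁻¹ := by
            rw [← one_div, le_div_iff₀ h9]
            exact h10
          linarith
        linarith
      · have h6 := Real.exp_le_exp.2 h5.2
        linarith
    rw [h1]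
    refine (abs_add_le _ _).trans ?_
    rw [abs_mul, abs_mul, abs_of_pos (Real.exp_pos (lG z))]
    have h3 := mul_le_mul_of_nonneg_left (hd z) (Real.exp_pos (lG z)).le
    have h4 := mul_le_mul_of_nonneg_right h2 (abs_nonneg (lF z))
    linarith
  rw [kF, kG, ← integral_sub (eG.mul hLG.eg).integrable (eF.mul hLF.eg).integrable, ← kF, ← hδ]
  refine abs_integral_le_integral_abs.trans ?_
  have j1 : Integrable (fun z => δ * Real.exp (lG z)) (gI κ) := eG.integrable.const_mul _
  have j2 : Integrable (fun z => (Real.exp δ - 1) * (|lF z| * Real.exp (lF z))) (gI κ) :=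
    (hLF.eg.abs.mul eF).integrable.const_mul _
  refine (integral_mono ((eG.mul hLG.eg).sub (eF.mul hLF.eg)).abs.integrable (j1.add j2)
    key).trans ?_
  have j3 : ∫ z, ((fun z => δ * Real.exp (lG z)) + fun z => (Real.exp δ - 1) *
      (|lF z| * Real.exp (lF z))) z ∂(gI κ) = ∫ z, (δ * Real.exp (lG z) +
      (Real.exp δ - 1) * (|lF z| * Real.exp (lF z))) ∂(gI κ) := rfl
  rw [j3, integral_add j1 j2, integral_const_mul, integral_const_mul, i1, mul_one]
  have h5 : 0 ≤ Real.exp δ - 1 := by linarith [Real.add_one_le_exp δ]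
  have h6 := mul_le_mul_of_nonneg_left i2 h5
  linarith

/-- close functions have close value functions -/
lemma W_close (hF : C11 F D B L) {B' L' : ℝ} (hG : C11 G DG B' L') (hx : 0 < x)
    (hε : ∀ z, |F z - G z| ≤ ε) (s : ℝ) (y : κ → ℝ) : |W x s F y - W x s G y| ≤ ε := by
  have key : ∀ {F G : (κ → ℝ) → ℝ} {D DG : κ → (κ → ℝ) → ℝ} {B L B' L' : ℝ},
      C11 F D B L → C11 G DG B' L' → (∀ z, F z ≤ G z + ε) → W x s F y ≤ W x s G y + ε := by
    intro F G D DG B L B' L' hF hG h
    have h1 : Real.exp (x * W x s F y) ≤ Real.exp (x * (W x s G y + ε)) := by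
      rw [mul_add, Real.exp_add, hF.lip.exp_W hF.B0 hx, hG.lip.exp_W hG.B0 hx,
        ← integral_mul_const]
      refine integral_mono (hF.lip.int_exp hF.B0 _ _ _) ((hG.lip.int_exp hG.B0 _ _ _).mul_const _)
        fun z => ?_
      simp only
      rw [← Real.exp_add, ← mul_add]
      exact Real.exp_le_exp.2 (mul_le_mul_of_nonneg_left (h _) hx.le)
    exact le_of_mul_le_mul_left (Real.exp_le_exp.1 h1) hx
  have h1 := key hF hG fun z => by linarith [(abs_le.1 (hε z)).2]
  have h2 := key hG hF fun z => by linarith [(abs_le.1 (hε z)).1]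
  rw [abs_le]
  constructor <;> linarith

/-- **Stability of the entropies of all restrictions.** -/
theorem KLt_stable (hF : C11 F D B L) {B' L' : ℝ} (hG : C11 G DG B' L') (hx : 0 < x)
    (hε : ∀ z, |F z - G z| ≤ ε) (t : ℝ) :
    |KLt x G t - KLt x F t| ≤ 2 * x * ε + (Real.exp (2 * x * ε) - 1) * (KLt x F t + 1) := by
  have h1 := (c11_Ut hF hx t)
  have h2 := (c11_Ut hG hx t)
  exact KL_stable (h1.lip.lip h1.B0) (h2.lip.lip h2.B0) hx.le fun z =>
    W_close hF hG hx hε _ _

end Vale.Agent.P146.H9
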