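import Vale.Agent.P146.H425.Ut

/-!
The relative entropy of the law tilted by `exp (x F)` is EXACTLY `(x^2/2) ∫_0^1 E_x |∇u_t|^2 dt`,
is nondecreasing in `x`, and is `x^2` times the derivative of `x ↦ (1/x) log E exp (x F)`.
-/

open MeasureTheory ProbabilityTheory Filter Topology

namespace Vale.Agent.P146.H9

open Vale.Agent.P157.Lv Vale.Agent.P146.H425

set_option linter.unusedSectionVars false

variable {κ : Type} [Fintype κ] {F : (κ → ℝ) → ℝ} {D : κ → (κ → ℝ) → ℝ} {B L x : ℝ}

/-- one step of the entropy chain from below, at a position -/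
lemma step_ge (h : C11 F D B L) (hx : 0 < x) {s b' b : ℝ} (hb : s ^ 2 + b' ^ 2 = b ^ 2)
    (y : κ → ℝ) :
    Real.exp (x * W x b F y) * (W x b F y + x / 2 * s ^ 2 * G2 x b F D y) ≤
      ∫ z, Real.exp (x * W x b' F (y + s • z)) * W x b' F (y + s • z) ∂(gI κ) := by
  have hW' := h.W' hx b'
  have h1 := KL_shift_ge (b := s) hW' hx y
  have hpos := Real.exp_pos (x * W x b F y)
  have e1 : G2 x s (W x b' F) (DW x b' F D) y = G2 x b F D y := by
    unfold G2
    refine Finset.sum_congr rfl fun e _ => ?_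
    rw [DW_step h hx hb e y]
    rfl
  rw [e1] at h1
  have e2 : KL (fun z => W x b' F (y + s • z)) x =
      x * ((∫ z, Real.exp (x * W x b' F (y + s • z)) * W x b' F (y + s • z) ∂(gI κ)) /
        Real.exp (x * W x b F y)) - x * W x b F y := by
    unfold KL
    rw [← exp_W_step h hx hb y, Real.log_exp]
  rw [e2] at h1
  set T := ∫ z, Real.exp (x * W x b' F (y + s • z)) * W x b' F (y + s • z) ∂(gI κ) with hT
  set w := W x b F y with hw
  have h2 : x * (w + x / 2 * s ^ 2 * G2 x b F D y) ≤ x * (T / Real.exp (x * w)) := by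
    nlinarith [h1]
  have h3 := le_of_mul_le_mul_left h2 hx
  rw [le_div_iff₀ hpos] at h3
  linarith

/-- one step of the entropy chain from below -/
theorem chain_ge (h : C11 F D B L) (hx : 0 < x) {a s a' b' b : ℝ}
    (ha : a ^ 2 + s ^ 2 = a' ^ 2) (hb : s ^ 2 + b' ^ 2 = b ^ 2) :
    Nm x a b F (W x b F) + x / 2 * s ^ 2 * Nm x a b F (G2 x b F D) ≤ Nm x a' b' F (W x b' F) := by
  have hW' := h.W' hx b'
  have hW := h.W' hx b
  have egU : EG fun y => Real.exp (x * W x b' F y) * W x b' F y := (hW'.eg_exp x).mul hW'.eg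
  have eg0 : EG fun y => Real.exp (x * W x b F y) * W x b F y := (hW.eg_exp x).mul hW.eg
  have eg1 : EG fun y => Real.exp (x * W x b F y) * G2 x b F D y := (hW.eg_exp x).mul hW.eg_G2
  rw [Nm_rot egU ha]
  unfold Nm
  rw [← integral_const_mul, ← integral_add (EG.smul' eg0 a).integrable
    ((EG.smul' eg1 a).integrable.const_mul _)]
  refine integral_mono ((EG.smul' eg0 a).integrable.add
    ((EG.smul' eg1 a).integrable.const_mul _)) (EG.smul' (EG.conv egU s) a).integrable
    fun z => ?_
  simp only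
  refine le_trans (le_of_eq ?_) (step_ge h hx hb (a • z))
  ring

/-- **The entropy production is at least the time integral of `Φ`.** -/
theorem KL_ge_int (h : C11 F D B L) (hx : 0 < x) :
    x ^ 2 / 2 * ∫ t in (0 : ℝ)..1, Phi x F D t ≤ KL F x := by
  set A0 := ∫ z, Real.exp (x * F z) ∂(gI κ) with hA0
  have hA : 0 < A0 := integral_exp_pos (h.eg_exp x).integrable
  set N : ℝ := (Fintype.card κ : ℝ) with hN
  have hN0 : 0 ≤ N := Nat.cast_nonneg _
  have key : ∀ K : ℕ, 0 < K → x ^ 2 / 2 * (∫ t in (0 : ℝ)..1, Phi x F D t) ≤ KL F x +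
      x ^ 2 / 2 * (N * B ^ 2) * (1 / K) := by
    intro K hK
    have hK' : (0 : ℝ) < K := Nat.cast_pos.2 hK
    set s : ℝ := Real.sqrt (1 / K) with hs
    have hs2 : s ^ 2 = 1 / K := Real.sq_sqrt (by positivity)
    set a : ℕ → ℝ := fun k => Real.sqrt (k / K) with ha
    set b : ℕ → ℝ := fun k => Real.sqrt (1 - k / K) with hb
    have ha2 : ∀ k : ℕ, a k ^ 2 = k / K := fun k => Real.sq_sqrt (by positivity)
    have hkK : ∀ k : ℕ, k ≤ K → (k : ℝ) / K ≤ 1 := fun k hk => by
      rw [div_le_one hK']; exact_mod_cast hk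
    have hb2 : ∀ k : ℕ, k ≤ K → b k ^ 2 = 1 - k / K := fun k hk =>
      Real.sq_sqrt (by linarith [hkK k hk])
    set P : ℕ → ℝ := fun k => Phi x F D (k / K) with hP
    have ind : ∀ k : ℕ, k ≤ K → Nm x (a 0) (b 0) F (W x (b 0) F) +
        (x / 2 * (1 / K) * ∑ i ∈ Finset.range k, P i) * A0 ≤ Nm x (a k) (b k) F (W x (b k) F) := by
      intro k
      induction k with
      | zero => intro _; simp
      | succ k ih =>
        intro hk
        have h1 := ih (by omega)
        have h2 := chain_ge h hx (a := a k) (s := s) (a' := a (k + 1)) (b' := b (k + 1))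
          (b := b k) (by rw [ha2, ha2, hs2]; push_cast; ring)
          (by rw [hb2 _ hk, hb2 _ (by omega), hs2]; push_cast; ring)
        have h3 : Nm x (a k) (b k) F (G2 x (b k) F D) = P k * A0 := by
          rw [hP]
          simp only
          unfold Phi
          rw [div_mul_cancel₀ _ hA.ne']
        rw [h3, hs2] at h2
        rw [Finset.sum_range_succ]
        nlinarith [h1, h2]
    have hfin := ind K le_rfl
    have eaK : a K = 1 := by rw [ha]; simp only; rw [div_self hK'.ne', Real.sqrt_one]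
    have ebK : b K = 0 := by rw [hb]; simp only; rw [div_self hK'.ne', sub_self, Real.sqrt_zero]
    have ea0 : a 0 = 0 := by rw [ha]; simp
    have eb0 : b 0 = 1 := by rw [hb]; simp
    rw [eaK, ebK, ea0, eb0] at hfin
    have e1 : Nm x 1 0 F (W x 0 F) = ∫ z, Real.exp (x * F z) * F z ∂(gI κ) := by
      unfold Nm
      refine integral_congr_ae (Eventually.of_forall fun z => ?_)
      simp only
      rw [W_zero hx, one_smul]
    have e2 : Nm x 0 1 F (W x 1 F) = A0 * W x 1 F 0 := by
      unfold Nm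
      simp only [zero_smul, integral_const, probReal_univ, smul_eq_mul, one_mul]
      congr 1
      rw [h.lip.exp_W h.B0 hx]
      simp
      rfl
    rw [e1, e2] at hfin
    -- the Riemann sum
    have hmono : MonotoneOn (fun u : ℝ => Phi x F D (u / K)) (Set.Icc 0 (0 + (K : ℝ))) := by
      intro u hu v hv huv
      have hu' : u / K ∈ Set.Icc (0 : ℝ) 1 := ⟨div_nonneg hu.1 hK'.le, by
        rw [div_le_one hK']; linarith [hu.2]⟩
      have hv' : v / K ∈ Set.Icc (0 : ℝ) 1 := ⟨div_nonneg hv.1 hK'.le, by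
        rw [div_le_one hK']; linarith [hv.2]⟩
      exact Phi_mono h hx hu' hv' (div_le_div_of_nonneg_right huv hK'.le)
    have hsum := hmono.integral_le_sum
    have hint : ∫ u in (0 : ℝ)..(0 + (K : ℝ)), Phi x F D (u / K) =
        K * ∫ t in (0 : ℝ)..1, Phi x F D t := by
      rw [intervalIntegral.integral_comp_div _ hK'.ne', zero_add, zero_div, div_self hK'.ne',
        smul_eq_mul]
    rw [hint] at hsum
    have hshift : K * (∫ t in (0 : ℝ)..1, Phi x F D t) - N * B ^ 2 ≤
        ∑ i ∈ Finset.range K, P i := by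
      have h1 : ∑ i ∈ Finset.range K, P (i + 1) + P 0 = ∑ i ∈ Finset.range K, P i + P K := by
        rw [← Finset.sum_range_succ', Finset.sum_range_succ]
      have h2 : K * (∫ t in (0 : ℝ)..1, Phi x F D t) ≤ ∑ i ∈ Finset.range K, P (i + 1) := by
        refine hsum.trans (le_of_eq ?_)
        refine Finset.sum_congr rfl fun i _ => ?_
        rw [hP]; simp
      have h3 : P K ≤ N * B ^ 2 := by
        rw [hP]; simp only
        rw [div_self hK'.ne']
        exact (Phi_bd h hx ⟨zero_le_one, le_rfl⟩).2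
      have h4 : 0 ≤ P 0 := by
        rw [hP]; simp only
        rw [Nat.cast_zero, zero_div]
        exact (Phi_bd h hx ⟨le_rfl, zero_le_one⟩).1
      linarith
    have hKL : KL F x = x / A0 * ((∫ z, Real.exp (x * F z) * F z ∂(gI κ)) -
        A0 * W x 1 F 0) := by
      unfold KL
      rw [W_one_zero, ← hA0]
      field_simp
    rw [hKL]
    have h6 := mul_le_mul_of_nonneg_left hshift (show 0 ≤ x / 2 * (1 / K) by positivity)
    have h7 := mul_le_mul_of_nonneg_right h6 hA.le
    have h5 : (x / 2 * (1 / K) * (K * (∫ t in (0 : ℝ)..1, Phi x F D t) - N * B ^ 2)) * A0 ≤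
        (∫ z, Real.exp (x * F z) * F z ∂(gI κ)) - A0 * W x 1 F 0 := by
      linarith
    have h8 := mul_le_mul_of_nonneg_left h5 (show 0 ≤ x / A0 by positivity)
    have e3 : x / A0 * ((x / 2 * (1 / K) * (K * (∫ t in (0 : ℝ)..1, Phi x F D t) -
        N * B ^ 2)) * A0) = x ^ 2 / 2 * (∫ t in (0 : ℝ)..1, Phi x F D t) -
        x ^ 2 / 2 * (N * B ^ 2) * (1 / K) := by
      field_simp
    rw [e3] at h8
    linarith
  have hlim : Tendsto (fun K : ℕ => KL F x + x ^ 2 / 2 * (N * B ^ 2) * (1 / (K : ℝ))) atTop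
      (𝓝 (KL F x + x ^ 2 / 2 * (N * B ^ 2) * 0)) := by
    have h1 : Tendsto (fun K : ℕ => 1 / (K : ℝ)) atTop (𝓝 0) := tendsto_one_div_atTop_nhds_zero_nat
    exact tendsto_const_nhds.add (h1.const_mul _)
  have := ge_of_tendsto hlim (by
    filter_upwards [eventually_gt_atTop 0] with K hK using key K hK)
  simpa using this

/-- **The entropy production is the time integral of `Φ`.** -/
theorem KL_eq_int (h : C11 F D B L) (hx : 0 < x) :
    KL F x = x ^ 2 / 2 * ∫ t in (0 : ℝ)..1, Phi x F D t :=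
  le_antisymm (KL_le h hx) (KL_ge_int h hx)

end Vale.Agent.P146.H9
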