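import Vale.Agent.P146.H9.NeMidA
import Vale.Agent.P146.H272.NeS1

set_option linter.all false

/-!
# P146: the near end at `T ∈ [n^(-70q) y² / 2, y²]`

`ne_mid`: on the window `KW`, if the own slope satisfies `-y² ≤ al`, the pair number at the shares
`1 - T`, `1 - 2 n^(-80q)` and with `2 ⌈n^(1-110q) y²⌉` hidden sites is at most `C y²`, where `C`
depends on the temperature only.
-/

open MeasureTheory ProbabilityTheory Filter Topology Set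

namespace Vale.Agent.P146.H9

open Vale.Agent.P157.Lv hiding Dep
open Vale.Agent.P146.H425 Vale.Agent.P146.H646 Vale.Agent.P146.H196
  Vale.Agent.P146.H475 Vale.Agent.P146.H347 Vale.Agent.P146.H418 Vale.Agent.P146.H412
  Vale.Agent.P146.H320 Vale.Agent.P146.H205 Vale.Agent.P146.H470 Vale.Agent.P146.H529
  Vale.Agent.P146.H355 Vale.Agent.P146.H272

/-- the exceptional probability -/
lemma pb_mid {κ η s wn kc ε' ε E : ℝ} {n m : ℝ} (hη : 0 < η) (hs2 : s ^ 2 ≤ wn) (hwn : 0 < wn)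
    (hηE : η ≤ E) (hkc : 0 < kc) (h1 : κ ^ 2 * (1 / √m) ≤ ε')
    (h2 : κ ^ 2 * (1 / √(n * (wn / 2))) ≤ ε') (h3 : κ ^ 2 * (2 * E) ≤ ε')
    (hek : kc * (3 * ε') ≤ ε) :
    κ ^ 2 * (kc * (1 / √m + (1 / √(n * (wn / 2)) + η * |s| / √(wn / 2)))) ≤ ε := by
  have k1 : |s| ≤ 2 * √(wn / 2) := by
    have h4 : s ^ 2 ≤ (2 * √(wn / 2)) ^ 2 := by
      rw [mul_pow, Real.sq_sqrt (by positivity)]
      linarith
    have h5 := Real.sqrt_le_sqrt h4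
    rwa [Real.sqrt_sq_eq_abs, Real.sqrt_sq (by positivity)] at h5
  have hw2 : 0 < √(wn / 2) := Real.sqrt_pos.2 (by positivity)
  have k2 : η * |s| / √(wn / 2) ≤ 2 * E := by
    rw [div_le_iff₀ hw2]
    calc η * |s| ≤ E * (2 * √(wn / 2)) := mul_le_mul hηE k1 (abs_nonneg _) (hη.le.trans hηE)
      _ = _ := by ring
  have k3 : κ ^ 2 * (η * |s| / √(wn / 2)) ≤ ε' :=
    (mul_le_mul_of_nonneg_left k2 (sq_nonneg κ)).trans h3
  have h4 : κ ^ 2 * (kc * (1 / √m + (1 / √(n * (wn / 2)) + η * |s| / √(wn / 2)))) =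
      kc * (κ ^ 2 * (1 / √m) + κ ^ 2 * (1 / √(n * (wn / 2))) +
        κ ^ 2 * (η * |s| / √(wn / 2))) := by ring
  rw [h4]
  refine le_trans (mul_le_mul_of_nonneg_left ?_ hkc.le) hek
  linarith

/-- The constant of the near end. -/
lemma const_mid {ε : ℝ} (hε : 0 < ε) : ∃ C0 : ℝ, 0 < C0 ∧ 1 ≤ ε * √C0 ∧ 2 ≤ ε * C0 := by
  refine ⟨(2 / ε) ^ 2 + 2 / ε, by positivity, ?_, ?_⟩
  · have h1 : 2 / ε ≤ √((2 / ε) ^ 2 + 2 / ε) := by
      apply Real.le_sqrt_of_sq_le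
      have : 0 < 2 / ε := by positivity
      linarith
    have h2 : ε * (2 / ε) ≤ ε * √((2 / ε) ^ 2 + 2 / ε) := mul_le_mul_of_nonneg_left h1 hε.le
    have h3 : ε * (2 / ε) = 2 := by field_simp
    linarith
  · have h3 : ε * ((2 / ε) ^ 2 + 2 / ε) = 2 + 4 / ε := by
      field_simp
      ring
    rw [h3]
    have : 0 < 4 / ε := by positivity
    linarith

/-- the numbers imply the smallness at one law -/
lemma mid_bad {b ε ε' C0 K q y V al s lam η T t u wn κ U8 : ℝ} {n m : ℕ} (hb : 0 < b)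
    (hbad : NeBad b (b ^ 2 + 2) ε) (hε : 0 < ε) (hε' : 0 < ε') (he10 : 10 * ε' ≤ ε)
    (hek : 32 / cK (b ^ 2 + 2) * (3 * ε') ≤ ε) (hC0 : 0 < C0) (hC1 : 1 ≤ ε' * √C0)
    (hC2 : 2 ≤ ε' * C0) (hK : K = 3 * (2 * (1 + 2 / b) + 1)) (hn : 0 < n) (hy : 0 < y)
    (hη : 0 < η) (hAdm : Adm (lawOf n b y V al s lam η)) (hη2 : η ≤ 1 / 2) (hy18 : y ≤ 1 / 8)
    (hs0 : 0 < s) (hl : 0 < lam) (hwn0 : 0 < wn) (hswn : s ^ 2 ≤ wn)
    (q1 : y * √(b ^ 2 + 2) ≤ 1 / 4) (q2 : 8 * (y ^ 2 * b ^ 2) ≤ 1)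
    (q4 : b ^ 2 + (V - s ^ 2) ≤ b ^ 2 + 2) (q5 : 0 < 1 + al) (q6 : 1 + al ≤ 2)
    (hal : -y ^ 2 ≤ al) (hη1 : η ≤ (n : ℝ) ^ (-(2000 * q)))
    (hgg : lam ≤ (n : ℝ) ^ (-(3800 * q)) * y ^ 2 * (s ^ 2 * n))
    (ht : H615.PstL (lawOf n b y V al s lam η) t u ≤ (n : ℝ) ^ (-(100 : ℝ)))
    (hT0 : 0 < T) (hTle : T ≤ 1) (hT2 : T ≤ 2 * y ^ 2)
    (hP : NeP (lawOf n b y V al s lam η) (b ^ 2 + 2) (min 1 U8) T wn m t u) (hU80 : 0 < U8)
    (hκ1 : 1 ≤ κ) (f1 : U8 ^ 2 ≤ κ * (C0 * y ^ 2)) (f2 : 1 / (n : ℝ) ≤ C0 * y ^ 2)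
    (f3 : κ * (5 / √(m : ℝ)) ≤ ε' * (C0 * y ^ 2))
    (f4 : κ * (5 * ((n : ℝ) ^ (-(3800 * q)) * y ^ 2)) ≤ ε' * (C0 * y ^ 2))
    (f5 : κ ^ 2 * (12 * U8 / (y ^ 2 * wn * n)) ≤ ε' ^ 2 * (C0 * y ^ 2))
    (f6 : κ ^ 2 * (1 / √(m : ℝ)) ≤ ε') (f7 : κ ^ 2 * (1 / √(n * (wn / 2))) ≤ ε')
    (f8 : κ ^ 2 * (2 * (n : ℝ) ^ (-(2000 * q))) ≤ ε') (f10 : y * κ ≤ ε')
    (f11 : (m : ℝ) / n ≤ ε' * (C0 * y ^ 2))
    (f12 : V / b ^ 2 ≤ ε' * (C0 * y ^ 2 * √(C0 * y ^ 2)))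
    (f13 : 54 * U8 / m ≤ ε' * (C0 * y ^ 2 * √(C0 * y ^ 2))) (f14 : V / b ^ 2 ≤ min 1 U8)
    (f15 : (n : ℝ) ^ (-(2 : ℝ)) ≤ min 1 U8)
    (f16 : K * (n : ℝ) ^ (-(49 : ℝ)) ≤ (n : ℝ) ^ (-(3800 * q)) * y ^ 2) (f17 : 8 * (m : ℝ) ≤ n) :
    (lawOf n b y V al s lam η).rr (Sn n m) t u ≤ (22 / b ^ 4 + 4) * C0 * y ^ 2 := by
  have hn0 : (0 : ℝ) < n := by exact_mod_cast hn
  have hy1 : y < 1 := by linarith
  have hy2 : 0 < y ^ 2 := by positivity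
  have hee : ε' ≤ ε := by linarith
  have hkc0 : 0 < 32 / cK (b ^ 2 + 2) := by
    have := cK_pos (show 0 < b ^ 2 + 2 by positivity)
    positivity
  have hmin0 : 0 < min 1 U8 := lt_min one_pos hU80
  have hmin8 : min 1 U8 ≤ U8 := min_le_right _ _
  have hκ0 : 0 < κ := by linarith
  obtain ⟨h0, hh0d⟩ : ∃ h0 : ℝ, h0 = C0 * y ^ 2 := ⟨_, rfl⟩
  rw [← hh0d] at f1 f2 f3 f4 f5 f11 f12 f13
  have hh0 : 0 < h0 := by rw [hh0d]; positivity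
  have hsq : √h0 = √C0 * y := by
    rw [hh0d, Real.sqrt_mul hC0.le, Real.sqrt_sq hy.le]
  have hmp : (0 : ℝ) < m := by exact_mod_cast hP.m1
  have hbkp : b * (1 - (1 - y) * rz b y al) = 1 + al := b_rz hb hy1
  have hkp : 0 < 1 - (1 - y) * rz b y al := by
    rw [rz_eq hy1]
    positivity
  have hs20 : 0 < s ^ 2 := by positivity
  have hG := theta_facts (n := n) hn hb hy hy18 q5 q6 hl hs20 (by positivity) hgg ht f15
    (by rw [← hK]; exact f16)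
  have hθ : κ * (5 / √(m : ℝ) + 2 * |lam / ((1 - y) * (s ^ 2 * n))| +
      3 * ((|rz b y al| + 1) * √(H615.PstL (lawOf n b y V al s lam η) t u)) / √(min 1 U8)) ≤
      ε * h0 := by
    have h1 := mul_le_mul_of_nonneg_left hG hκ0.le
    have h3 : 2 * ε' * h0 ≤ ε * h0 := mul_le_mul_of_nonneg_right (by linarith) hh0.le
    calc _ = κ * (5 / √(m : ℝ)) + κ * (2 * |lam / ((1 - y) * (s ^ 2 * n))| +
        3 * ((|rz b y al| + 1) * √(H615.PstL (lawOf n b y V al s lam η) t u)) /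
          √(min 1 U8)) := by ring
      _ ≤ _ := by linarith
  have hpb := pb_mid (n := (n : ℝ)) (m := (m : ℝ)) hη hswn hwn0 hη1 hkc0 f6 f7 f8 hek
  have hκκ : η * κ ≤ ε := by
    have h1 : η * κ ≤ (n : ℝ) ^ (-(2000 * q)) * κ ^ 2 := by
      have h3 : κ ≤ κ ^ 2 := by
        calc κ = κ * 1 := (mul_one κ).symm
          _ ≤ κ * κ := mul_le_mul_of_nonneg_left hκ1 hκ0.le
          _ = κ ^ 2 := (sq κ).symm
      exact mul_le_mul hη1 h3 hκ0.le (by positivity)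
    have h2 : 0 ≤ κ ^ 2 * (n : ℝ) ^ (-(2000 * q)) := by positivity
    have h3 : κ ^ 2 * (2 * (n : ℝ) ^ (-(2000 * q))) = 2 * (κ ^ 2 * (n : ℝ) ^ (-(2000 * q))) := by
      ring
    rw [h3] at f8
    have h4 : (n : ℝ) ^ (-(2000 * q)) * κ ^ 2 = κ ^ 2 * (n : ℝ) ^ (-(2000 * q)) := mul_comm _ _
    rw [h4] at h1
    linarith
  have hrk : κ ^ 2 * (12 * min 1 U8 / (y ^ 2 * wn * n)) ≤ ε ^ 2 * h0 := by
    have h1 : κ ^ 2 * (12 * min 1 U8 / (y ^ 2 * wn * n)) ≤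
        κ ^ 2 * (12 * U8 / (y ^ 2 * wn * n)) := by gcongr
    have h2 : ε' ^ 2 * h0 ≤ ε ^ 2 * h0 := by gcongr
    exact h1.trans (f5.trans h2)
  have hvp : (V - s ^ 2) / b ^ 2 ≤ V / b ^ 2 :=
    div_le_div_of_nonneg_right (by linarith) (by positivity)
  have hhε : ε' * h0 ≤ ε * h0 := mul_le_mul_of_nonneg_right hee hh0.le
  have hhs : ε' * (h0 * √h0) ≤ ε * (h0 * √h0) := mul_le_mul_of_nonneg_right hee (by positivity)
  have hinc : 54 * min 1 U8 / (m : ℝ) ≤ ε * (h0 * √h0) := by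
    have h1 : 54 * min 1 U8 / (m : ℝ) ≤ 54 * U8 / m := by gcongr
    exact h1.trans (f13.trans hhs)
  have h2m : 2 * m ≤ n := by
    have h2 : ((2 * m : ℕ) : ℝ) ≤ n := by
      push_cast
      linarith
    exact_mod_cast h2
  have hc : cc n b s al = s ^ 2 * n * (1 - (1 - y) * rz b y al) := by
    rw [rz_eq hy1]
    unfold cc
    ring
  have hcy : 2 * y ^ 2 ≤ ε' * h0 := by
    calc 2 * y ^ 2 ≤ ε' * C0 * y ^ 2 := mul_le_mul_of_nonneg_right hC2 hy2.le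
      _ = ε' * h0 := by rw [hh0d]; ring
  have hA2 : 1 - (b * (1 - (1 - y) * rz b y al)) ^ 2 ≤ ε * h0 := by
    rw [hbkp]
    have h1 : 1 - (1 + al) ^ 2 ≤ 2 * y ^ 2 := by
      have h4 : 1 - (1 + al) ^ 2 = -2 * al - al ^ 2 := by ring
      rw [h4]
      have := sq_nonneg al
      linarith
    linarith
  have hxh : y ≤ ε * √h0 := by
    have h1 : 1 * y ≤ ε' * √C0 * y := mul_le_mul_of_nonneg_right hC1 hy.le
    have h2 : ε' * √C0 * y = ε' * √h0 := by rw [hsq]; ring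
    have h3 : ε' * √h0 ≤ ε * √h0 := mul_le_mul_of_nonneg_right hee (Real.sqrt_nonneg _)
    linarith
  have hTh : T ≤ ε * h0 := by linarith
  have hwf : (V - s ^ 2) / b ^ 2 ≤ ε * (h0 * √h0) := (hvp.trans f12).trans hhs
  have hfin := hbad (lawOf n b y V al s lam η) rfl hAdm hη2 hs0.ne' hy hy1 (rz b y al) hc hkp
    (hbkp.le.trans q6) q2 q1 q4 T wn (min 1 U8) t u m hP hmin0 (min_le_left _ _)
    hT0 hTle hwn0 h2m (hvp.trans f14) h0 κ hh0 hκ1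
    ((pow_le_pow_left₀ hmin0.le hmin8 2).trans f1) f2 hθ hrk hpb hκκ hxh (f10.trans hee)
    hTh (f11.trans hhε) hA2 hwf hinc
  calc _ ≤ (22 / b ^ 4 + 4) * h0 := hfin
    _ = (22 / b ^ 4 + 4) * C0 * y ^ 2 := by rw [hh0d]; ring

variable {a0 b₁ q A b : ℝ}

/-- **The near end against `C y²`.** -/
theorem ne_mid_of (hb : 0 < b) {ε : ℝ} (hε : 0 < ε) (hbad : NeBad b (b ^ 2 + 2) ε) :
    ∃ C : ℝ, 0 < C ∧ ∀ {a0 b₁ q A : ℝ}, 0 < q → a0 ≤ 1 / 6 → 100 * q < b₁ → 1 ≤ A →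
      ∀ᶠ n : ℕ in atTop, ∀ y V al s lam η : ℝ, KW a0 b₁ q A b n y V al s lam η → -y ^ 2 ≤ al →
        ∀ T : ℝ, (n : ℝ) ^ (-(70 * q)) * y ^ 2 / 2 ≤ T → T ≤ y ^ 2 →
        (lawOf n b y V al s lam η).rr (Sn n (2 * ⌈(n : ℝ) ^ (1 - 110 * q) * y ^ 2⌉₊)) (1 - T)
          (1 - 2 * (n : ℝ) ^ (-(80 * q))) ≤ C * y ^ 2 := by
  have hb2 : 0 < b ^ 2 + 2 := by positivity
  have hcK := cK_pos hb2
  have hkc0 : 0 < 32 / cK (b ^ 2 + 2) := by positivity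
  obtain ⟨ε', hε', he10, hek, heb⟩ := eps_facts hb hε hkc0
  have hee : ε' ≤ ε := by linarith
  obtain ⟨C0, hC0, hC1, hC2⟩ := const_mid hε'
  refine ⟨(22 / b ^ 4 + 4) * C0, by positivity, ?_⟩
  intro a0 b₁ q A hq ha0 hb₁ hA
  have hA0 : 0 < A := by linarith
  obtain ⟨c0, hc0p, hc1, hc2, hc3⟩ : ∃ c0 : ℝ, 0 < c0 ∧ c0 ≤ cK (b ^ 2 + 2) / 4 ∧
      c0 ≤ 1 / (4 * (√(b ^ 2 + 2) + 1)) ∧ c0 ≤ 1 / 8 :=
    ⟨min (cK (b ^ 2 + 2) / 4) (min (1 / (4 * (√(b ^ 2 + 2) + 1))) (1 / 8)),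
      lt_min (by positivity) (lt_min (by positivity) (by norm_num)), min_le_left _ _,
      (min_le_right _ _).trans (min_le_left _ _), (min_le_right _ _).trans (min_le_right _ _)⟩
  obtain ⟨K, hK⟩ : ∃ K, K = 3 * (2 * (1 + 2 / b) + 1) := ⟨_, rfl⟩
  have hK0 : 0 < K := by rw [hK]; positivity
  obtain ⟨M, hM⟩ : ∃ M, M = 10 * |Real.log A| + 10 * |Real.log C0| + 10 * |Real.log ε'| +
    10 * |Real.log b| + |Real.log K| + 1000 := ⟨_, rfl⟩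
  filter_upwards [H30.kw_par1 hq hb ha0 hb₁ hA, kw_small (a0 := a0) hq hb hb₁ hA hc0p,
    kw_pst hq hb ha0 hb₁ hA 100, kw_gn hq hb ha0 hb₁ hA,
    ev_log (show 0 < q / 100 by positivity) M, eventually_gt_atTop 1] with n e1 e2 e4 e5 e6 hn
  intro y V al s lam η h hal T hT1 hT2
  have hn0 : (0 : ℝ) < n := by exact_mod_cast (by omega : 0 < n)
  have hn1 : (1 : ℝ) < n := by exact_mod_cast hn
  have hL : 0 < Real.log n := Real.log_pos hn1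
  obtain ⟨p1, p2, p3, p4⟩ := e1 y V al s lam η h
  obtain ⟨s1, s2, s3, s4, s5, s6⟩ := e2 y V al s lam η h
  have hPst := e4 y V al s lam η h
  obtain ⟨hgn, hg1⟩ := e5 y V al s lam η h
  have hy := h.y0
  have hη := h.η0
  have hV := h.V0
  obtain ⟨q1, q2, q3, q4, q5, q6, q7⟩ := small_facts hb hy hη s1 s2 s3 s4 (s5.trans s6) hc2 hc3
  have hy18 : y ≤ 1 / 8 := s1.trans hc3
  have hy1 : y < 1 := by linarith
  have hη2 : η ≤ 1 / 2 := by linarith [s4.trans hc3]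
  have hAdm : Adm (lawOf n b y V al s lam η) :=
    ⟨by show 0 < n; omega, hb, p3, h.l0, h.η0.le, hy.le, hy1.le⟩
  have hs0 : 0 < s := h.s0
  -- the share of the field
  obtain ⟨d, hd⟩ : ∃ d : ℝ, d = (n : ℝ) ^ (-(80 * q)) := ⟨_, rfl⟩
  have hd0 : 0 < d := by rw [hd]; positivity
  have hqL : M ≤ q / 100 * Real.log n := e6
  have hMp : 1000 ≤ M := by
    have a1 := abs_nonneg (Real.log A)
    have a2 := abs_nonneg (Real.log C0)
    have a3 := abs_nonneg (Real.log ε')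
    have a4 := abs_nonneg (Real.log b)
    have a5 := abs_nonneg (Real.log K)
    linarith
  have hd8 : d ≤ 1 / 8 := by
    rw [hd]
    refine le_of_log (by positivity) (by norm_num) ?_
    rw [Real.log_rpow hn0, one_div, Real.log_inv]
    have : Real.log 8 ≤ 7 := by
      have := Real.log_le_sub_one_of_pos (x := 8) (by norm_num)
      linarith
    linarith
  have hsd : s ^ 2 ≤ d * V := by rw [hd]; exact h.s2
  obtain ⟨wn, hwn⟩ : ∃ wn : ℝ, wn = 2 * d * (V - s ^ 2) := ⟨_, rfl⟩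
  have hvpV : V / 2 ≤ V - s ^ 2 := by
    have : d * V ≤ 1 / 8 * V := mul_le_mul_of_nonneg_right hd8 hV.le
    linarith
  have hwl : d * V ≤ wn := by
    rw [hwn]
    have : 2 * d * (V / 2) ≤ 2 * d * (V - s ^ 2) := mul_le_mul_of_nonneg_left hvpV (by positivity)
    linarith
  have hwn0 : 0 < wn := lt_of_lt_of_le (by positivity) hwl
  have hwv : wn ≤ V - s ^ 2 := by
    rw [hwn]
    have : 2 * d * (V - s ^ 2) ≤ 2 * (1 / 8) * (V - s ^ 2) := by gcongr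
    linarith
  have hus : 1 - wn / (V - s ^ 2) = 1 - 2 * (n : ℝ) ^ (-(80 * q)) := by
    rw [hwn, ← hd]
    field_simp
  have hswn : s ^ 2 ≤ wn := hsd.trans hwl
  -- the number of hidden sites
  set X : ℝ := (n : ℝ) ^ (1 - 110 * q) * y ^ 2 with hX
  have hX0 : 0 < X := by positivity
  have hX1 : 1 ≤ X := by
    refine le_of_log one_pos hX0 ?_
    have g1 := Real.log_le_log (by positivity) h.yl
    simp (disch := positivity) only [Real.log_mul, Real.log_rpow] at g1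
    rw [Real.log_one, hX, Real.log_mul (by positivity) (by positivity), Real.log_rpow hn0,
      Real.log_pow]
    push_cast
    have m2 : a0 * Real.log n ≤ 1 / 6 * Real.log n := mul_le_mul_of_nonneg_right ha0 hL.le
    have m3 : 0 < q * Real.log n := mul_pos hq hL
    have a1 := le_abs_self (Real.log A)
    have a2 := abs_nonneg (Real.log C0)
    have a3 := abs_nonneg (Real.log ε')
    have a4 := abs_nonneg (Real.log b)
    have a5 := abs_nonneg (Real.log K)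
    have a6 := abs_nonneg (Real.log A)
    linarith
  have hc1' : 1 ≤ ⌈X⌉₊ := Nat.one_le_ceil_iff.2 hX0
  have hmR : ∀ m ∈ Finset.Icc ⌈X⌉₊ (2 * ⌈X⌉₊), X ≤ m ∧ (m : ℝ) ≤ 4 * X := by
    intro m hm
    have hm' := Finset.mem_Icc.1 hm
    have h1 : X ≤ m := (Nat.le_ceil X).trans (by exact_mod_cast hm'.1)
    have h3 : (m : ℝ) ≤ 2 * ⌈X⌉₊ := by exact_mod_cast hm'.2
    have h4 := (Nat.ceil_lt_add_one hX0.le).le
    exact ⟨h1, by linarith⟩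
  -- the window
  have hy2 : 0 < y ^ 2 := by positivity
  have hT0 : 0 < T := lt_of_lt_of_le (by positivity) hT1
  have hW : ∀ m : ℕ, m ∈ Finset.Icc ⌈X⌉₊ (2 * ⌈X⌉₊) → MW a0 b₁ q A n y V wn (2 * T) m := fun m hm =>
    ⟨hn, hy, hV, h.yl, h.yu, h.Vl, h.Vu, by rw [← hd]; exact hwl, by linarith, by linarith,
      (hmR m hm).1, (hmR m hm).2⟩
  have hN : ∀ m : ℕ, m ∈ Finset.Icc ⌈X⌉₊ (2 * ⌈X⌉₊) → _ := fun m hm =>
    mid_nums hq hb₁.le ha0 hA0 hC0 hb hK0 hε' hM hqL (hW m hm)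
  obtain ⟨-, -, -, -, -, -, -, -, -, -, -, -, -, -, -, hM8, hT2le⟩ := hN (2 * ⌈X⌉₊)
    (Finset.mem_Icc.2 ⟨by omega, le_rfl⟩)
  have hMn : 2 * ⌈X⌉₊ < n := by
    have h3 : (1 : ℝ) ≤ ((2 * ⌈X⌉₊ : ℕ) : ℝ) := by exact_mod_cast (by omega : 1 ≤ 2 * ⌈X⌉₊)
    have h2 : ((2 * ⌈X⌉₊ : ℕ) : ℝ) < n := by linarith
    exact_mod_cast h2
  -- the typical point
  obtain ⟨t, u, m, hm, hP, hrr⟩ := ne_num (L := lawOf n b y V al s lam η) hAdm
    hη2 hy p2 hb2 (s1.trans hc1) q3 hgn hg1 (show 0 < 2 * T by positivity) hT2le hwn0 hwv hc1' hMn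
  obtain ⟨f1, f2, f3, f4, f5, f6, f7, f8, f10, f11, f12, f13, f14, f15, f16, f17, f18⟩ := hN m hm
  have e2T : (1 : ℝ) - 2 * T / 2 = 1 - T := by ring
  have hrr' : (lawOf n b y V al s lam η).rr (Sn n (2 * ⌈X⌉₊)) (1 - T)
      (1 - 2 * (n : ℝ) ^ (-(80 * q))) ≤ (lawOf n b y V al s lam η).rr (Sn n m) t u := by
    rw [← hus, ← e2T]
    exact hrr
  refine hrr'.trans ?_
  have ht := hPst t ⟨by linarith [hP.t0], by linarith [hP.t1]⟩ u ⟨hP.u0, hP.u1.le⟩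
  have hrN : 0 < rN q b n y (2 * T) := by unfold rN; positivity
  exact mid_bad hb hbad hε hε' he10 hek hC0 hC1 hC2 hK (by omega) hy hη hAdm hη2 hy18 hs0 h.l0 hwn0
    hswn q1 q2 q4 q5 q6 hal h.η1 h.gg ht (by positivity) hT2le (by linarith) hP (by positivity)
    (Real.one_le_rpow hn1.le (by positivity)) f1 f2 f3 f4 f5 f6 f7 f8 f10 f11 f12 f13 f14 f15 f16 f17

/-- **The near end against `C y²`**, the constant depends on the temperature only. -/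
theorem ne_mid (hb : 0 < b) :
    ∃ C : ℝ, 0 < C ∧ ∀ {a0 b₁ q A : ℝ}, 0 < q → a0 ≤ 1 / 6 → 100 * q < b₁ → 1 ≤ A →
      ∀ᶠ n : ℕ in atTop, ∀ y V al s lam η : ℝ, KW a0 b₁ q A b n y V al s lam η → -y ^ 2 ≤ al →
        ∀ T : ℝ, (n : ℝ) ^ (-(70 * q)) * y ^ 2 / 2 ≤ T → T ≤ y ^ 2 →
        (lawOf n b y V al s lam η).rr (Sn n (2 * ⌈(n : ℝ) ^ (1 - 110 * q) * y ^ 2⌉₊)) (1 - T)
          (1 - 2 * (n : ℝ) ^ (-(80 * q))) ≤ C * y ^ 2 := by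
  obtain ⟨ε, hε, -, hbad⟩ := H586.ne_bad hb (show 0 < b ^ 2 + 2 by positivity)
  exact ne_mid_of hb hε hbad

end Vale.Agent.P146.H9
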