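import Vale.Agent.P146.H272.NeNum

set_option linter.all false

/-!
# P146: the numbers of the near end at `T ∈ [n^(-70q) y², 2 y²]` against `C₀ y²`
-/

namespace Vale.Agent.P146.H9

open Real Filter Vale.Agent.P146.H470 Vale.Agent.P146.H272

/-- the window -/
structure MW (a0 b1 q A : ℝ) (n : ℕ) (y V wn T m : ℝ) : Prop where
  n1 : 1 < n
  y0 : 0 < y
  V0 : 0 < V
  yl : (n : ℝ) ^ (-a0 + 1000 * q) ≤ A * y
  yu : y ≤ A * (n : ℝ) ^ (-b1)
  Vl : (n : ℝ) ^ (-(24 * q)) * y ^ 3 ≤ A * V
  Vu : V ≤ A * ((n : ℝ) ^ (-(24 * q)) * y ^ 3)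
  wl : (n : ℝ) ^ (-(80 * q)) * V ≤ wn
  Tl : (n : ℝ) ^ (-(70 * q)) * y ^ 2 ≤ T
  Tu : T ≤ 2 * y ^ 2
  ml : (n : ℝ) ^ (1 - 110 * q) * y ^ 2 ≤ m
  mu : m ≤ 4 * ((n : ℝ) ^ (1 - 110 * q) * y ^ 2)

theorem mid_nums {a0 b1 q A C0 b K ε M : ℝ} (hq : 0 < q) (hb1 : 100 * q ≤ b1) (ha : a0 ≤ 1 / 6)
    (hA : 0 < A) (hC0 : 0 < C0) (hb : 0 < b) (hK : 0 < K) (hε : 0 < ε)
    (hM : M = 10 * |log A| + 10 * |log C0| + 10 * |log ε| + 10 * |log b| + |log K| + 1000)
    {n : ℕ} (e1 : M ≤ q / 100 * log n) {y V wn T m : ℝ}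
    (hW : MW a0 b1 q A n y V wn T m) :
    (8 * √(rN q b n y T)) ^ 2 ≤ (n : ℝ) ^ (72 * q) * (C0 * y ^ 2) ∧
    1 / (n : ℝ) ≤ C0 * y ^ 2 ∧
    (n : ℝ) ^ (72 * q) * (5 / √m) ≤ ε * (C0 * y ^ 2) ∧
    (n : ℝ) ^ (72 * q) * (5 * ((n : ℝ) ^ (-(3800 * q)) * y ^ 2)) ≤ ε * (C0 * y ^ 2) ∧
    ((n : ℝ) ^ (72 * q)) ^ 2 * (12 * (8 * √(rN q b n y T)) / (y ^ 2 * wn * n)) ≤
      ε ^ 2 * (C0 * y ^ 2) ∧
    ((n : ℝ) ^ (72 * q)) ^ 2 * (1 / √m) ≤ ε ∧
    ((n : ℝ) ^ (72 * q)) ^ 2 * (1 / √(n * (wn / 2))) ≤ ε ∧
    ((n : ℝ) ^ (72 * q)) ^ 2 * (2 * (n : ℝ) ^ (-(2000 * q))) ≤ ε ∧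
    y * (n : ℝ) ^ (72 * q) ≤ ε ∧
    m / n ≤ ε * (C0 * y ^ 2) ∧
    V / b ^ 2 ≤ ε * (C0 * y ^ 2 * √(C0 * y ^ 2)) ∧
    54 * (8 * √(rN q b n y T)) / m ≤ ε * (C0 * y ^ 2 * √(C0 * y ^ 2)) ∧
    V / b ^ 2 ≤ min 1 (8 * √(rN q b n y T)) ∧
    (n : ℝ) ^ (-(2 : ℝ)) ≤ min 1 (8 * √(rN q b n y T)) ∧
    K * (n : ℝ) ^ (-(49 : ℝ)) ≤ (n : ℝ) ^ (-(3800 * q)) * y ^ 2 ∧
    8 * m ≤ n ∧ T ≤ 1 := by
  obtain ⟨hn1, hy, hV, h1, h2, h3, h4, h5, h6, h7, h8, h9⟩ := hW
  have hn : (0 : ℝ) < n := by exact_mod_cast (by omega : 0 < n)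
  have hL0 : 0 < log (n : ℝ) := Real.log_pos (by exact_mod_cast hn1)
  have hwn : 0 < wn := lt_of_lt_of_le (by positivity) h5
  have hT : 0 < T := lt_of_lt_of_le (by positivity) h6
  have hm : 0 < m := lt_of_lt_of_le (by positivity) h8
  have hr0 : 0 < rN q b n y T := by unfold rN; positivity
  have l1 := Real.log_le_log (by positivity) h1
  have l2 := Real.log_le_log hy h2
  have l3 := Real.log_le_log (by positivity) h3
  have l4 := Real.log_le_log hV h4
  have l5 := Real.log_le_log (by positivity) h5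
  have l6 := Real.log_le_log (by positivity) h6
  have l7 := Real.log_le_log hT h7
  have l8 := Real.log_le_log (by positivity) h8
  have l9 := Real.log_le_log hm h9
  simp (disch := positivity) only [Real.log_mul, Real.log_rpow, Real.log_pow] at l1 l2 l3 l4 l5 l6 l7 l8 l9
  push_cast at l3 l4 l5 l6 l7 l8 l9
  have k1 : log A ≤ |log A| := le_abs_self _
  have k2 : -log ε ≤ |log ε| := neg_le_abs _
  have k5 : log b ≤ |log b| := le_abs_self _
  have k6 : -log b ≤ |log b| := neg_le_abs _
  have k7 : log K ≤ |log K| := le_abs_self _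
  have k10 : -log C0 ≤ |log C0| := neg_le_abs _
  have k11 : log C0 ≤ |log C0| := le_abs_self _
  have k3 := abs_nonneg (log A)
  have k4 := abs_nonneg (log ε)
  have k8 := abs_nonneg (log b)
  have k9 := abs_nonneg (log K)
  have k12 := abs_nonneg (log C0)
  have cl : ∀ c : ℝ, 0 < c → c ≤ 100 → log c ≤ 100 := fun c h0 h1 =>
    (Real.log_le_sub_one_of_pos h0).trans (by linarith)
  have c8 := cl 8 (by norm_num) (by norm_num)
  have c12 := cl 12 (by norm_num) (by norm_num)
  have c54 := cl 54 (by norm_num) (by norm_num)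
  have c2 := cl 2 (by norm_num) (by norm_num)
  have c4 := cl 4 (by norm_num) (by norm_num)
  have c5 := cl 5 (by norm_num) (by norm_num)
  have d2 : 0 < log 2 := Real.log_pos (by norm_num)
  have d8 : 0 < log 8 := Real.log_pos (by norm_num)
  set L := log (n : ℝ) with hLd
  set ly := log y with hly
  set lT := log T with hlT
  set lV := log V with hlV
  set lw := log wn with hlw
  set lm := log m with hlm
  have qL : 0 < q * L := mul_pos hq hL0
  have bL : 100 * (q * L) ≤ b1 * L := by
    have := mul_le_mul_of_nonneg_right hb1 hL0.le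
    linarith
  have aL : a0 * L ≤ 1 / 6 * L := mul_le_mul_of_nonneg_right ha hL0.le
  have lr : log (rN q b n y T) = q * L + 4 * ly - 2 * log b - lT := by
    unfold rN
    simp (disch := positivity) only [Real.log_mul, Real.log_div, Real.log_rpow, Real.log_pow]
    push_cast
    ring
  refine ⟨?_, ?_, ?_, ?_, ?_, ?_, ?_, ?_, ?_, ?_, ?_, ?_, ?_, ?_, ?_, ?_, ?_⟩
  · refine le_of_log (by positivity) (by positivity) ?_
    simp (disch := positivity) only [Real.log_mul, Real.log_div, Real.log_rpow, Real.log_pow,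
      Real.log_sqrt, lr]
    push_cast
    linarith
  · refine le_of_log (by positivity) (by positivity) ?_
    simp (disch := positivity) only [Real.log_mul, Real.log_div, Real.log_rpow, Real.log_pow,
      Real.log_one]
    push_cast
    linarith
  · refine le_of_log (by positivity) (by positivity) ?_
    simp (disch := positivity) only [Real.log_mul, Real.log_div, Real.log_rpow, Real.log_pow,
      Real.log_sqrt, Real.log_one]
    push_cast
    linarith
  · refine le_of_log (by positivity) (by positivity) ?_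
    simp (disch := positivity) only [Real.log_mul, Real.log_div, Real.log_rpow, Real.log_pow,
      Real.log_sqrt, Real.log_one]
    push_cast
    linarith
  · refine le_of_log (by positivity) (by positivity) ?_
    simp (disch := positivity) only [Real.log_mul, Real.log_div, Real.log_rpow, Real.log_pow,
      Real.log_sqrt, lr]
    push_cast
    linarith
  · refine le_of_log (by positivity) (by positivity) ?_
    simp (disch := positivity) only [Real.log_mul, Real.log_div, Real.log_rpow, Real.log_pow,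
      Real.log_sqrt, Real.log_one]
    push_cast
    linarith
  · refine le_of_log (by positivity) (by positivity) ?_
    simp (disch := positivity) only [Real.log_mul, Real.log_div, Real.log_rpow, Real.log_pow,
      Real.log_sqrt, Real.log_one]
    push_cast
    linarith
  · refine le_of_log (by positivity) (by positivity) ?_
    simp (disch := positivity) only [Real.log_mul, Real.log_div, Real.log_rpow, Real.log_pow,
      Real.log_sqrt, Real.log_one]
    push_cast
    linarith
  · refine le_of_log (by positivity) (by positivity) ?_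
    simp (disch := positivity) only [Real.log_mul, Real.log_rpow]
    linarith
  · refine le_of_log (by positivity) (by positivity) ?_
    simp (disch := positivity) only [Real.log_mul, Real.log_div, Real.log_pow]
    push_cast
    linarith
  · refine le_of_log (by positivity) (by positivity) ?_
    simp (disch := positivity) only [Real.log_mul, Real.log_div, Real.log_pow, Real.log_sqrt]
    push_cast
    linarith
  · refine le_of_log (by positivity) (by positivity) ?_
    simp (disch := positivity) only [Real.log_mul, Real.log_div, Real.log_rpow, Real.log_pow,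
      Real.log_sqrt, lr]
    push_cast
    linarith
  · refine le_min ?_ ?_
    · refine le_of_log (by positivity) one_pos ?_
      simp (disch := positivity) only [Real.log_div, Real.log_pow, Real.log_one]
      push_cast
      linarith
    · refine le_of_log (by positivity) (by positivity) ?_
      simp (disch := positivity) only [Real.log_mul, Real.log_div, Real.log_pow, Real.log_sqrt, lr]
      push_cast
      linarith
  · refine le_min ?_ ?_
    · refine le_of_log (by positivity) one_pos ?_
      rw [Real.log_rpow hn, Real.log_one]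
      linarith
    · refine le_of_log (by positivity) (by positivity) ?_
      simp (disch := positivity) only [Real.log_mul, Real.log_rpow, Real.log_sqrt, lr]
      linarith
  · refine le_of_log (by positivity) (by positivity) ?_
    simp (disch := positivity) only [Real.log_mul, Real.log_rpow, Real.log_pow]
    push_cast
    linarith
  · refine le_of_log (by positivity) hn ?_
    rw [Real.log_mul (by norm_num) hm.ne']
    linarith
  · refine le_of_log hT one_pos ?_
    rw [Real.log_one]
    linarith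

end Vale.Agent.P146.H9
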