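import Mathlib

/-!
# A centred variable which is rarely small deviates to both sides

`side_neg`, `side_pos`: `r² / 64 ≤ E Y² · P(Y ≤ -r/8)`, and the same for `Y ≥ r/8`, if `E Y = 0` and
`P(|Y| ≤ r) ≤ 1/2`.
-/

open MeasureTheory ProbabilityTheory Set

namespace Vale.Agent.P146.H9

variable {Ω : Type*} [MeasurableSpace Ω] {P : Measure Ω} [IsProbabilityMeasure P] {Y : Ω → ℝ}

lemma quad_side {a V p : ℝ} (ha : 0 < a) (hV : 0 ≤ V) (hp : 0 ≤ p)
    (h : ∀ t : ℝ, 0 < t → 2 * t * a ≤ t ^ 2 * V + p) : a ^ 2 ≤ V * p := by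
  rcases hV.eq_or_lt with h0 | h0
  · exfalso
    have h1 := h ((p + 1) / (2 * a)) (by positivity)
    rw [← h0, mul_zero, zero_add] at h1
    have h2 : 2 * ((p + 1) / (2 * a)) * a = p + 1 := by field_simp
    linarith
  · have h1 := h (a / V) (by positivity)
    have h2 : 2 * (a / V) * a = 2 * (a ^ 2 / V) := by ring
    have h3 : (a / V) ^ 2 * V = a ^ 2 / V := by field_simp
    rw [h2, h3] at h1
    have h4 : a ^ 2 / V ≤ p := by linarith
    rw [div_le_iff₀ h0] at h4
    linarith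

/-- **the left side** -/
theorem side_neg (hY : MemLp Y 2 P) (hmeas : Measurable Y) (hm : ∫ ω, Y ω ∂P = 0) {r : ℝ}
    (hr : 0 < r) (hs : P.real {ω | |Y ω| ≤ r} ≤ 1 / 2) :
    r ^ 2 / 64 ≤ (∫ ω, Y ω ^ 2 ∂P) * P.real {ω | Y ω ≤ -(r / 8)} := by
  have i1 : Integrable Y P := hY.integrable (by norm_num)
  have i1a : Integrable (fun ω => |Y ω|) P := i1.abs
  have i2 : Integrable (fun ω => Y ω ^ 2) P := hY.integrable_sq
  have mA : MeasurableSet {ω | Y ω ≤ -(r / 8)} := measurableSet_le hmeas measurable_const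
  have mB : MeasurableSet {ω | |Y ω| ≤ r} := measurableSet_le hmeas.abs measurable_const
  -- the first absolute moment
  have h1 : r / 2 ≤ ∫ ω, |Y ω| ∂P := by
    have e1 : ∫ ω, ({ω | |Y ω| ≤ r}ᶜ).indicator (fun _ => r) ω ∂P =
        r * P.real ({ω | |Y ω| ≤ r}ᶜ) := by
      rw [integral_indicator mB.compl, setIntegral_const, smul_eq_mul, mul_comm]
    have e2 : P.real ({ω | |Y ω| ≤ r}ᶜ) = 1 - P.real {ω | |Y ω| ≤ r} := by
      rw [probReal_compl_eq_one_sub mB]
    have e3 : ∫ ω, ({ω | |Y ω| ≤ r}ᶜ).indicator (fun _ => r) ω ∂P ≤ ∫ ω, |Y ω| ∂P := by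
      refine integral_mono ((integrable_const r).indicator mB.compl) i1a fun ω => ?_
      by_cases hω : |Y ω| ≤ r
      · rw [indicator_of_notMem (by simpa using hω)]
        exact abs_nonneg _
      · rw [indicator_of_mem (by simpa using hω)]
        exact (not_le.1 hω).le
    rw [e1, e2] at e3
    have e4 : r * (1 / 2) ≤ r * (1 - P.real {ω | |Y ω| ≤ r}) :=
      mul_le_mul_of_nonneg_left (by linarith) hr.le
    linarith
  -- the negative part
  have h2 : ∀ ω, |Y ω| ≤ Y ω + 2 * (r / 8 + {ω | Y ω ≤ -(r / 8)}.indicator (fun ω => |Y ω|) ω) := by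
    intro ω
    by_cases hω : Y ω ≤ -(r / 8)
    · rw [indicator_of_mem (by simpa using hω)]
      have : |Y ω| = -Y ω := abs_of_nonpos (by linarith)
      linarith
    · rw [indicator_of_notMem (by simpa using hω)]
      have h3 := not_le.1 hω
      rcases le_total 0 (Y ω) with h4 | h4
      · rw [abs_of_nonneg h4]
        linarith
      · rw [abs_of_nonpos h4]
        linarith
  have iA : Integrable ({ω | Y ω ≤ -(r / 8)}.indicator fun ω => |Y ω|) P := i1a.indicator mA
  have h3 : ∫ ω, |Y ω| ∂P ≤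
      2 * (r / 8 + ∫ ω, {ω | Y ω ≤ -(r / 8)}.indicator (fun ω => |Y ω|) ω ∂P) := by
    have i3 : Integrable (fun ω => r / 8 +
        {ω | Y ω ≤ -(r / 8)}.indicator (fun ω => |Y ω|) ω) P := (integrable_const (r / 8)).add iA
    have h4 : ∫ ω, |Y ω| ∂P ≤ ∫ ω, (Y ω + 2 * (r / 8 +
        {ω | Y ω ≤ -(r / 8)}.indicator (fun ω => |Y ω|) ω)) ∂P :=
      integral_mono i1a (i1.add (i3.const_mul 2)) h2
    rw [integral_add i1 (i3.const_mul 2), integral_const_mul,
      integral_add (integrable_const (r / 8)) iA, hm, zero_add, integral_const, smul_eq_mul,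
      probReal_univ, one_mul] at h4
    exact h4
  have h5 : r / 8 ≤ ∫ ω, {ω | Y ω ≤ -(r / 8)}.indicator (fun ω => |Y ω|) ω ∂P := by linarith
  -- Cauchy-Schwarz
  have h6 : ∀ t : ℝ, 0 < t → 2 * t * (r / 8) ≤
      t ^ 2 * (∫ ω, Y ω ^ 2 ∂P) + P.real {ω | Y ω ≤ -(r / 8)} := by
    intro t ht
    have h7 : ∀ ω, 2 * t * {ω | Y ω ≤ -(r / 8)}.indicator (fun ω => |Y ω|) ω ≤
        t ^ 2 * Y ω ^ 2 + {ω | Y ω ≤ -(r / 8)}.indicator (fun _ => (1 : ℝ)) ω := by
      intro ω
      by_cases hω : Y ω ≤ -(r / 8)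
      · rw [indicator_of_mem (by simpa using hω), indicator_of_mem (by simpa using hω)]
        nlinarith [sq_nonneg (t * |Y ω| - 1), sq_abs (Y ω)]
      · rw [indicator_of_notMem (by simpa using hω), indicator_of_notMem (by simpa using hω),
          mul_zero, add_zero]
        positivity
    have h8 := integral_mono (iA.const_mul (2 * t))
      ((i2.const_mul (t ^ 2)).add ((integrable_const (1 : ℝ)).indicator mA)) h7
    rw [integral_const_mul] at h8
    have e1 : ∫ ω, ((fun ω => t ^ 2 * Y ω ^ 2) +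
        {ω | Y ω ≤ -(r / 8)}.indicator fun _ => (1 : ℝ)) ω ∂P =
        t ^ 2 * (∫ ω, Y ω ^ 2 ∂P) + P.real {ω | Y ω ≤ -(r / 8)} := by
      rw [integral_add' (i2.const_mul (t ^ 2)) ((integrable_const (1 : ℝ)).indicator mA),
        integral_const_mul, integral_indicator mA, setIntegral_const, smul_eq_mul, mul_one]
    have h9 := mul_le_mul_of_nonneg_left h5 (by positivity : 0 ≤ 2 * t)
    exact h9.trans (h8.trans (le_of_eq e1))
  have h10 := quad_side (by positivity : 0 < r / 8)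
    (integral_nonneg fun ω => sq_nonneg (Y ω)) measureReal_nonneg h6
  calc r ^ 2 / 64 = (r / 8) ^ 2 := by ring
    _ ≤ _ := h10

/-- **the right side** -/
theorem side_pos (hY : MemLp Y 2 P) (hmeas : Measurable Y) (hm : ∫ ω, Y ω ∂P = 0) {r : ℝ}
    (hr : 0 < r) (hs : P.real {ω | |Y ω| ≤ r} ≤ 1 / 2) :
    r ^ 2 / 64 ≤ (∫ ω, Y ω ^ 2 ∂P) * P.real {ω | r / 8 ≤ Y ω} := by
  have h := side_neg (Y := fun ω => -Y ω) (P := P) hY.neg hmeas.neg
    (by rw [integral_neg, hm, neg_zero]) hr (by simpa only [abs_neg] using hs)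
  simp only [neg_sq, neg_le_neg_iff] at h
  exact h

end Vale.Agent.P146.H9
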